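import Vale.Agent.P168.Upper.Core.Sites

/-!
# P168: the value of the field end
-/

namespace Vale.Agent.P168

open MeasureTheory Set Filter Vale.Agent.P157.Low Vale.Agent.P166F.Low.Cascade
open scoped ENNReal

variable {K N r : ℕ} {ρ : ℝ} {x : (Fin (r + 1) → UI) → ℝ} {C : Casc r} {m : Fin r → ℝ}
  {η : Measure ℝ} [IsProbabilityMeasure η] {β : Measure ℝ} [IsProbabilityMeasure β]
  {φ : Measure (Bool → ℝ)} [IsProbabilityMeasure φ]

/-- The mean of one site over its field. -/
noncomputable def siteMean (K : ℕ) {N : ℕ} (C : Casc r) (ρ : ℝ) (x : (Fin (r + 1) → UI) → ℝ)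
    (η : Measure ℝ) (i : Fin N) (n : ℕ) (v : Fin n → UMark K N) : ℝ :=
  ∫ t, siteGain C ρ x i t v ∂η

/-- The marks attached to site `i`. -/
noncomputable def placeAt (K : ℕ) {N : ℕ} (i : Fin N) :
    Measure ((Fin K → Bool) × (Fin K → Fin N)) :=
  (unif K).map fun ℓ => (maskOne ℓ, fun _ => i)

/-- The field marks away from site `i`. -/
noncomputable def placeOff (K : ℕ) {N : ℕ} (i : Fin N) :
    Measure ((Fin K → Bool) × (Fin K → Fin N)) :=
  ((unif K).prod ((unif N).restrict {i}ᶜ)).map fun p => (maskOne p.1, fun _ => p.2)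

lemma isProbability_placeAt [NeZero K] (i : Fin N) : IsProbabilityMeasure (placeAt K i) :=
  Measure.isProbabilityMeasure_map Measurable.of_discrete.aemeasurable

instance [NeZero K] (i : Fin N) : IsProbabilityMeasure (placeAt K i) := isProbability_placeAt i

lemma placeField_eq [NeZero K] [NeZero N] (i : Fin N) :
    placeField K N = ENNReal.ofReal (1 / N) • placeAt K i + placeOff K i := by
  have hN : (0 : ℝ) < N := by exact_mod_cast (NeZero.pos N)
  have hd : unif N = ENNReal.ofReal (1 / N) • Measure.dirac i + (unif N).restrict {i}ᶜ := by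
    conv_lhs => rw [← Measure.restrict_add_restrict_compl (μ := unif N) (measurableSet_singleton i)]
    congr 1
    rw [Measure.restrict_singleton]
    congr 1
    rw [one_div, ENNReal.ofReal_inv_of_pos hN, ENNReal.ofReal_natCast]
    simp [unif]
  unfold placeField placeAt placeOff
  conv_lhs => rw [hd]
  rw [Measure.prod_add, Measure.prod_smul_right, Measure.map_add _ _ Measurable.of_discrete,
    Measure.map_smul, Measure.prod_dirac, Measure.map_map Measurable.of_discrete
    Measurable.of_discrete]
  rfl

lemma markLaw_field [NeZero K] [NeZero N] (i : Fin N) :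
    umarkLaw β φ (placeField K N) =
      mixLaw (1 / N) (umarkLaw β φ (placeAt K i)) (umarkLaw β φ (placeOff K i)) := by
  have : IsFiniteMeasure (placeOff K i) := by unfold placeOff; infer_instance
  have := Measure.smul_finite (placeAt K i) (ENNReal.ofReal_ne_top (r := 1 / (N : ℝ)))
  simp only [umarkLaw, mixLaw, placeField_eq i, Measure.add_prod, Measure.prod_smul_left]

lemma ae_placeField [NeZero K] [NeZero N] :
    ∀ᵐ v ∂umarkLaw β φ (placeField K N), IsField v := by
  have h : ∀ᵐ q ∂placeField K N, ∃ ℓ, q.1 = maskOne ℓ := by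
    unfold placeField
    rw [ae_map_iff Measurable.of_discrete.aemeasurable (Set.toFinite _).measurableSet]
    exact Eventually.of_forall fun p => ⟨p.1, rfl⟩
  exact Measure.quasiMeasurePreserving_fst.ae h

lemma ae_placeOff [NeZero K] [NeZero N] (i : Fin N) :
    ∀ᵐ v ∂umarkLaw β φ (placeOff K i), ¬ Att i v := by
  have : IsFiniteMeasure (placeOff K i) := by unfold placeOff; infer_instance
  have h : ∀ᵐ q ∂placeOff K i, ¬ ∃ j, q.1 j = true ∧ q.2 j = i := by
    unfold placeOff
    rw [ae_map_iff Measurable.of_discrete.aemeasurable (Set.toFinite _).measurableSet]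
    have : ∀ᵐ p ∂(unif K).prod ((unif N).restrict {i}ᶜ), p.2 ∈ ({i}ᶜ : Set (Fin N)) :=
      Measure.quasiMeasurePreserving_snd.ae (ae_restrict_mem (measurableSet_singleton i).compl)
    refine this.mono fun p hp ⟨j, _, hj⟩ => hp ?_
    exact hj
  exact Measure.quasiMeasurePreserving_fst.ae h

variable (S : Setting C m ρ x) (hη : Integrable (fun h => h) η)
include S

lemma siteGain_congr {κ κ' : Type} [Fintype κ] [Fintype κ'] (i : Fin N) (t : ℝ) (u : κ → UMark K N)
    (u' : κ' → UMark K N) {e : κ × Fin K → κ' × Fin K} (he : Function.Injective e)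
    (h : ∀ s, siteZ ρ x i t u' s = siteZ ρ x i t u (s ∘ e)) :
    siteGain C ρ x i t u' = siteGain C ρ x i t u := by
  rw [siteGain, siteGain, ← lev0_restrict he (bdd_siteLog S i t u)]
  simp only [h]

omit [IsProbabilityMeasure η] in
lemma ignores_siteMean (i : Fin N) :
    Ignores (fun v : UMark K N => ¬ Att i v) (siteMean K C ρ x η i) := by
  intro n a y v hy
  refine integral_congr_ae (Eventually.of_forall fun t => ?_)
  refine siteGain_congr S i t v _ (e := fun p => (a.succAbove p.1, p.2))
    (fun p q hpq => Prod.ext (Fin.succAbove_right_injective (Prod.ext_iff.1 hpq).1)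
      (Prod.ext_iff.1 hpq).2) fun s => ?_
  simp only [siteZ, Fin.prod_univ_succAbove _ a, Fin.insertNth_apply_same,
    Fin.insertNth_apply_succAbove, if_neg hy, one_mul, Function.comp_apply]

include hη

lemma markFn_siteMean (i : Fin N) : MarkFn (siteMean K C ρ x η i) := by
  refine ⟨fun n => (measurable_siteGain S i).stronglyMeasurable.integral_prod_right'
      (f := fun p : (Fin n → UMark K N) × ℝ => siteGain C ρ x i p.2 p.1) (ν := η) |>.measurable,
    Real.log 2 + ∫ t, |t| ∂η, cost ρ, fun n v => ?_⟩
  have hi : Integrable (fun t : ℝ => Real.log 2 + |t| + cost ρ * n) η :=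
    ((integrable_const _).add hη.abs).add (integrable_const _)
  have he : ∫ t, (Real.log 2 + |t| + cost ρ * n) ∂η =
      Real.log 2 + (∫ t, |t| ∂η) + cost ρ * n := by
    rw [integral_add (f := fun t : ℝ => Real.log 2 + |t|) ((integrable_const _).add hη.abs)
      (integrable_const _), integral_add (integrable_const _) hη.abs]
    simp
  refine (norm_integral_le_of_norm_le (f := fun t => siteGain C ρ x i t v) hi
    (Eventually.of_forall fun t => ?_)).trans he.le
  simpa [siteGain] using abs_lev0_le (C := C) (bdd_siteLog S i t v)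

lemma meanGain_fields [NeZero K] [NeZero N] (n : ℕ) :
    meanGain C ρ x η (umarkLaw β φ (placeField K N)) n =
      ∑ i : Fin N, markMean (umarkLaw β φ (placeField K N)) (siteMean K C ρ x η i) n := by
  set μ := umarkLaw β φ (placeField K N)
  have hall : ∀ᵐ v ∂(Measure.pi fun _ : Fin n => μ), ∀ k, IsField (v k) :=
    ae_all_iff.2 fun k =>
      (measurePreserving_eval (fun _ : Fin n => μ) k).quasiMeasurePreserving.ae ae_placeField
  have hint := integrable_gain (C := C) (K := K) (N := N) S hη n (Measure.pi fun _ : Fin n => μ)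
  have hf : ∀ i (v : Fin n → UMark K N),
      Integrable (fun h : Fin N → ℝ => siteGain C ρ x i (h i) v) (Measure.pi fun _ : Fin N => η) ∧
        ∫ h : Fin N → ℝ, siteGain C ρ x i (h i) v ∂(Measure.pi fun _ : Fin N => η) =
          siteMean K C ρ x η i n v := by
    intro i v
    have hm : Measurable fun t => siteGain C ρ x i t v := measurable_siteGain_right S i v
    have hi : Integrable (fun t => siteGain C ρ x i t v) η := by
      refine Integrable.mono' (((integrable_const (Real.log 2)).add hη.abs).add
        (integrable_const (cost ρ * n))) hm.aestronglyMeasurable (Eventually.of_forall fun t => ?_)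
      simpa [siteGain] using abs_lev0_le (C := C) (bdd_siteLog S i t v)
    refine ⟨((measurePreserving_eval (fun _ : Fin N => η) i).integrable_comp
      hm.aestronglyMeasurable).2 hi, ?_⟩
    unfold siteMean
    conv_rhs => rw [← (measurePreserving_eval (fun _ : Fin N => η) i).map_eq]
    exact (integral_map (φ := fun h : Fin N → ℝ => h i) (measurable_pi_apply i).aemeasurable
      hm.aestronglyMeasurable).symm
  have key : ∀ᵐ v ∂(Measure.pi fun _ : Fin n => μ),
      ∫ h, gain C ρ x h v ∂(Measure.pi fun _ : Fin N => η) =
        ∑ i, siteMean K C ρ x η i n v := hall.mono fun v hv => by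
    simp only [gain_fields (C := C) S _ v hv]
    rw [integral_finsetSum _ fun i _ => (hf i v).1]
    simp only [fun i => (hf i v).2]
  rw [meanGain, integral_integral_swap hint, integral_congr_ae key,
    integral_finsetSum _ fun i _ => (markFn_siteMean S hη i).integrable n]
  rfl

omit hη

lemma sum_table_mul_erase (q : UPar K) (ℓ : Fin K) (ε : Bool) (t : Msgs r (Fin K)) :
    ∑ σ : Fin K → Bool with σ ℓ = ε, Real.exp (coreTable ρ q σ) *
        ∏ j ∈ Finset.univ.erase ℓ, msgWeight (x (t j)) (σ j) =
      1 + uclip ρ q.1 * ∏ j, if maskOne ℓ j then fOf q.2 j ε else bar (fOf q.2 j) (x (t j)) := by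
  classical
  set w : Fin K → Bool → ℝ := fun j s =>
    if j = ℓ then (if s = ε then 1 else 0) else msgWeight (x (t j)) s
  have hw : ∀ σ : Fin K → Bool, (∏ j, w j (σ j)) =
      if σ ℓ = ε then ∏ j ∈ Finset.univ.erase ℓ, msgWeight (x (t j)) (σ j) else 0 := fun σ => by
    rw [← Finset.mul_prod_erase Finset.univ _ (Finset.mem_univ ℓ)]
    have : ∀ j ∈ Finset.univ.erase ℓ, w j (σ j) = msgWeight (x (t j)) (σ j) := fun j hj => by
      simp [w, (Finset.mem_erase.1 hj).1]
    rw [Finset.prod_congr rfl this]
    by_cases hσ : σ ℓ = ε <;> simp [w, hσ]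
  calc ∑ σ : Fin K → Bool with σ ℓ = ε, Real.exp (coreTable ρ q σ) *
        ∏ j ∈ Finset.univ.erase ℓ, msgWeight (x (t j)) (σ j)
      = ∑ σ : Fin K → Bool, Real.exp (coreTable ρ q σ) * ∏ j, w j (σ j) := by
        rw [Finset.sum_filter]
        exact Finset.sum_congr rfl fun σ _ => by rw [hw σ, mul_ite, mul_zero]
    _ = _ := by
        simp only [exp_coreTable S.nonneg S.lt_one, add_mul, one_mul, Finset.sum_add_distrib,
          mul_assoc, ← Finset.mul_sum, ← Finset.prod_mul_distrib, ← Fintype.prod_sum]
        have h1 : ∀ j, ∑ s, w j s = 1 := fun j => by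
          by_cases hj : j = ℓ
          · simp [w, hj]
          · simp only [w, if_neg hj, sum_msgWeight]
        have h2 : ∀ j, ∑ s, fOf q.2 j s * w j s =
            if maskOne ℓ j then fOf q.2 j ε else bar (fOf q.2 j) (x (t j)) := fun j => by
          by_cases hj : j = ℓ
          · simp [w, maskOne, hj]
          · simp [w, maskOne, hj, bar, mul_comm]
        rw [← Fintype.prod_sum fun j s => fOf q.2 j s * w j s]
        simp only [h1, h2, Finset.prod_const_one]

include hη

/-- The first term of the trial functional, as a mean over the marks at one site. -/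
lemma markMean_at [NeZero K] (i : Fin N) (n : ℕ) :
    markMean (umarkLaw β φ (placeAt K i)) (siteMean K C ρ x η i) n =
      ∫ t, ∫ cl, trialAvg volume m (trialU x t cl) ∂(Measure.pi fun _ : Fin n =>
        ((parLaw K β φ).map (coreTable ρ)).prod (unif K)) ∂η := by
  set μc := (parLaw K β φ).map (coreTable ρ)
  have : IsProbabilityMeasure μc :=
    Measure.isProbabilityMeasure_map (measurable_coreTable ρ).aemeasurable
  set g : Fin K × UPar K → UMark K N := fun z => ((maskOne z.1, fun _ => i), z.2)
  set g' : Fin K × UPar K → Table K × Fin K := fun z => (coreTable ρ z.2, z.1)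
  have hg : MeasurePreserving g ((unif K).prod (parLaw K β φ)) (umarkLaw β φ (placeAt K i)) := by
    have h1 : MeasurePreserving (fun ℓ : Fin K => ((maskOne ℓ, fun _ => i) :
        (Fin K → Bool) × (Fin K → Fin N))) (unif K) (placeAt K i) :=
      ⟨Measurable.of_discrete, rfl⟩
    exact h1.prod (MeasurePreserving.id (parLaw K β φ))
  have hg' : MeasurePreserving g' ((unif K).prod (parLaw K β φ)) (μc.prod (unif K)) :=
    Measure.measurePreserving_swap.comp ((MeasurePreserving.id (unif K)).prod
      (⟨measurable_coreTable ρ, rfl⟩ : MeasurePreserving (coreTable ρ) (parLaw K β φ) μc))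
  have hG : MeasurePreserving (fun (w : Fin n → Fin K × UPar K) k => g (w k))
      (Measure.pi fun _ => (unif K).prod (parLaw K β φ))
      (Measure.pi fun _ : Fin n => umarkLaw β φ (placeAt K i)) :=
    measurePreserving_pi _ _ fun _ => hg
  have hG' : MeasurePreserving (fun (w : Fin n → Fin K × UPar K) k => g' (w k))
      (Measure.pi fun _ => (unif K).prod (parLaw K β φ))
      (Measure.pi fun _ : Fin n => μc.prod (unif K)) :=
    measurePreserving_pi _ _ fun _ => hg'
  set e : (Fin n → UMark K N) × ℝ → ℝ := fun p => siteGain C ρ x i p.2 p.1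
  have hmU : ∀ t, Measurable fun cl : Fin n → Table K × Fin K =>
      trialAvg volume m (trialU x t cl) := fun t => by
    refine measurable_trialAvg _ m ?_
    show Measurable fun z : (Fin n → Table K × Fin K) × (Fin (r + 1) → Fin n × Fin K → UI) =>
      trialU x t z.1 z.2
    refine Finset.measurable_sum _ fun ε _ => measurable_const.mul
      (Finset.measurable_prod _ fun k _ => ?_)
    have hk : Measurable fun z : (Fin n → Table K × Fin K) × (Fin (r + 1) → Fin n × Fin K → UI) =>
        z.1 k := (measurable_pi_apply k).comp measurable_fst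
    have e' : ∀ z : (Fin n → Table K × Fin K) × (Fin (r + 1) → Fin n × Fin K → UI),
        (∑ σ with σ (z.1 k).2 = ε, Real.exp ((z.1 k).1 σ) *
          ∏ j ∈ Finset.univ.erase (z.1 k).2, msgWeight (msg x z.2 (k, j)) (σ j)) =
        ∑ ℓ : Fin K, if (z.1 k).2 = ℓ then (∑ σ with σ ℓ = ε, Real.exp ((z.1 k).1 σ) *
          ∏ j ∈ Finset.univ.erase ℓ, msgWeight (msg x z.2 (k, j)) (σ j)) else 0 := fun z => by
      simp
    simp only [e']
    refine Finset.measurable_sum _ fun ℓ _ => Measurable.ite
      (measurableSet_eq_fun (measurable_snd.comp hk) measurable_const) ?_ measurable_const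
    refine Finset.measurable_sum _ fun σ _ => (Real.measurable_exp.comp
      ((measurable_pi_apply σ).comp (measurable_fst.comp hk))).mul
        (Finset.measurable_prod _ fun j _ => ?_)
    have hp : Measurable fun z : (Fin n → Table K × Fin K) ×
        (Fin (r + 1) → Fin n × Fin K → UI) => msg x z.2 (k, j) :=
      S.xm.comp (measurable_pi_lambda _ fun l =>
        (measurable_pi_apply (k, j)).comp ((measurable_pi_apply l).comp measurable_snd))
    exact (measurable_const.add (hp.mul_const _)).div_const _
  have key : ∀ t, ∫ cl, trialAvg volume m (trialU x t cl) ∂(Measure.pi fun _ : Fin n =>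
      μc.prod (unif K)) = ∫ v, e (v, t) ∂(Measure.pi fun _ : Fin n => umarkLaw β φ (placeAt K i)) := by
    intro t
    have hme : Measurable fun v : Fin n → UMark K N => e (v, t) := measurable_siteGain_left S i t
    conv_lhs => rw [← hG'.map_eq]
    conv_rhs => rw [← hG.map_eq]
    rw [integral_map hG'.measurable.aemeasurable (hmU t).aestronglyMeasurable,
      integral_map hG.measurable.aemeasurable hme.aestronglyMeasurable]
    refine integral_congr_ae (Eventually.of_forall fun w => ?_)
    show trialAvg volume m (trialU x t fun k => g' (w k)) =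
      siteGain C ρ x i t fun k => g (w k)
    rw [siteGain_eq_trialAvg S]
    refine congrArg _ (funext fun ω => ?_)
    have hatt : ∀ k, Att i (g (w k)) := fun k => ⟨(w k).1, by simp [g, maskOne], rfl⟩
    simp only [trialU, siteZ, hatt, if_true]
    refine Finset.sum_congr rfl fun ε _ => congrArg _ (Finset.prod_congr rfl fun k _ => ?_)
    exact sum_table_mul_erase S (w k).2 (w k).1 ε fun j p => ω p (k, j)
  simp only [key]
  unfold markMean siteMean
  refine integral_integral_swap (f := fun v t => e (v, t)) ?_
  refine Integrable.mono' ((((integrable_const (Real.log 2)).add hη.abs).add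
    (integrable_const (cost ρ * n))).comp_snd _)
    (measurable_siteGain (κ := Fin n) (K := K) S (C := C) i).aestronglyMeasurable
    (Eventually.of_forall fun p => ?_)
  simpa [e, siteGain, Function.uncurry] using abs_lev0_le (C := C) (bdd_siteLog S i p.2 p.1)

/-- The field end of the interpolation. -/
theorem field_end [NeZero K] [NeZero N] {lam : ℝ} (hl : 0 ≤ lam) :
    poissonAvg (K * lam * N) (meanGain C ρ x η (umarkLaw β φ (placeField K N))) =
      N * poissonAvg (K * lam) (fun c => ∫ h, ∫ cl, trialAvg volume m (trialU x h cl)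
        ∂(Measure.pi fun _ : Fin c => ((parLaw K β φ).map (coreTable ρ)).prod (unif K)) ∂η) := by
  have hN : (1 : ℝ) ≤ N := by exact_mod_cast NeZero.one_le
  have hc0 : 0 ≤ (K : ℝ) * lam * N := by positivity
  rw [funext (meanGain_fields (C := C) (β := β) (φ := φ) S hη),
    poissonAvg_sum _ hc0 fun i _ => (markFn_siteMean (K := K) S hη i).linGrowth]
  have each : ∀ i : Fin N,
      poissonAvg (K * lam * N) (markMean (umarkLaw β φ (placeField K N)) (siteMean K C ρ x η i)) =
        poissonAvg (K * lam) (fun c => ∫ h, ∫ cl, trialAvg volume m (trialU x h cl)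
          ∂(Measure.pi fun _ : Fin c => ((parLaw K β φ).map (coreTable ρ)).prod (unif K)) ∂η) :=
    fun i => by
    have : IsFiniteMeasure (placeOff K i) := by unfold placeOff; infer_instance
    have hq : (umarkLaw β φ (placeOff K i)) Set.univ = ENNReal.ofReal (1 - 1 / N) := by
      have h1 := congrArg (fun μ : Measure (UMark K N) => μ Set.univ) (markLaw_field (β := β) (φ := φ) i)
      simp only [mixLaw, Measure.coe_add, Measure.coe_smul, Pi.add_apply, Pi.smul_apply,
        measure_univ, smul_eq_mul, mul_one] at h1
      rw [ENNReal.ofReal_sub _ (by positivity), ENNReal.ofReal_one]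
      exact (ENNReal.sub_eq_of_eq_add_rev ENNReal.ofReal_ne_top h1).symm
    rw [markLaw_field i, poissonAvg_markMean_mix (Neu := fun v : UMark K N => ¬ Att i v)
      (q := 1 - 1 / (N : ℝ)) (by positivity)
      (sub_nonneg.2 ((div_le_one (by linarith)).2 hN)) (by ring) hc0 hq (ae_placeOff i)
      (markFn_siteMean S hη i) (ignores_siteMean S i),
      show 1 / (N : ℝ) * (K * lam * N) = K * lam by field_simp]
    congr 1
    funext n
    exact markMean_at S hη i n
  simp [each]

end Vale.Agent.P168
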