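import Vale.Agent.P168.Upper.Core.ClauseEnd
import Vale.Agent.P168.Upper.Core.FieldEnd

/-!
# P168: the interpolation bound for truncated product clauses
-/

namespace Vale.Agent.P168

open MeasureTheory Set Filter Vale.Agent.P157.Low

/-- The interpolation bound when `|b| ≤ ρ < 1`, `|f| ≤ 1` and `a = 1`. -/
theorem pressure_le_core {K N r : ℕ} [NeZero K] [NeZero N] (hK : Even K) {lam : ℝ} (hl : 0 ≤ lam)
    {C : Casc r} {m : Fin r → ℝ} {ρ : ℝ} {x : (Fin (r + 1) → UI) → ℝ} (S : Setting C m ρ x)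
    {β : Measure ℝ} [IsProbabilityMeasure β] {φ : Measure (Bool → ℝ)} [IsProbabilityMeasure φ]
    (hpos : ∀ n : ℕ, 1 ≤ n → 0 ≤ ∫ b, (-uclip ρ b) ^ n ∂β)
    {η : Measure ℝ} [IsProbabilityMeasure η] (hη : Integrable (fun h => h) η) :
    pressure lam ((parLaw K β φ).map (coreTable ρ)) η N ≤
      trialValue lam ((parLaw K β φ).map (coreTable ρ)) η m x := by
  have hN : (0 : ℝ) < N := by exact_mod_cast (NeZero.pos N)
  have h := poissonAvg_mono (c := (K : ℝ) * lam * N) (by positivity)
    (linGrowth_meanGain (C := C) S hη _) (linGrowth_meanGain (C := C) S hη _)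
    (meanGain_le (C := C) (N := N) (φ := φ) S hη hK hpos)
  rw [clause_end S hη hl, field_end S hη hl] at h
  rw [trialValue, trialV_end (C := C) S]
  have : (N : ℝ) * (pressure lam ((parLaw K β φ).map (coreTable ρ)) η N +
      ((K : ℝ) - 1) * lam * freeBar K C ρ x β φ) ≤
      N * poissonAvg (K * lam) (fun c => ∫ h, ∫ cl, trialAvg volume m (trialU x h cl)
        ∂(Measure.pi fun _ : Fin c => ((parLaw K β φ).map (coreTable ρ)).prod (unif K)) ∂η) := by
    linarith
  linarith [le_of_mul_le_mul_left this hN]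

end Vale.Agent.P168
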