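import Vale.Agent.P168.Upper.Core.Clauses

/-!
# P168: the value of the clause end
-/

namespace Vale.Agent.P168

open MeasureTheory Set Filter Vale.Agent.P157.Low Vale.Agent.P166F.Low.Cascade
open scoped ENNReal

variable {K N r : ℕ} {ρ : ℝ} {x : (Fin (r + 1) → UI) → ℝ} {C : Casc r} {m : Fin r → ℝ}
  {η : Measure ℝ} [IsProbabilityMeasure η] {β : Measure ℝ} [IsProbabilityMeasure β]
  {φ : Measure (Bool → ℝ)} [IsProbabilityMeasure φ]

/-- The mean of a free factor. -/
noncomputable def freeBar (K : ℕ) (C : Casc r) (ρ : ℝ) (x : (Fin (r + 1) → UI) → ℝ) (β : Measure ℝ)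
    (φ : Measure (Bool → ℝ)) : ℝ := ∫ q, freeGain C ρ x q ∂parLaw K β φ

variable (S : Setting C m ρ x)
include S

lemma freeW_pos (q : UPar K) (t : Msgs r (Fin K)) : 0 < freeW ρ x q t := by
  refine (Real.exp_pos (-cost ρ)).trans_le (one_add_mem S.nonneg S.lt_one ?_).1
  rw [abs_mul, Finset.abs_prod]
  exact (mul_le_mul (abs_uclip_le S.nonneg _) (Finset.prod_le_one (fun _ _ => abs_nonneg _)
    fun j _ => abs_bar_le (fOf_le _ _) (S.xb _)) (Finset.prod_nonneg fun _ _ => abs_nonneg _)
    S.nonneg).trans (mul_one ρ).le

lemma measurable_freeGain : Measurable (freeGain (K := K) C ρ x) := by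
  have e : ∀ q : UPar K, freeGain C ρ x q = trialAvg (volume : Measure (Fin K → UI)) m
      fun ω => freeW ρ x q fun j p => ω p j := fun q => by
    rw [freeGain, lev0_eq_trialAvg S.cdf S.pos (bdd_freeLog S.xb S.nonneg S.lt_one S.xm q)]
    simp only [Real.exp_log (freeW_pos S q _)]
  rw [funext e]
  refine measurable_trialAvg _ m (Y := fun (q : UPar K) (ω : Fin (r + 1) → Fin K → UI) =>
    freeW ρ x q fun j p => ω p j) ?_
  refine measurable_const.add (((measurable_uclip ρ).comp (measurable_fst.comp measurable_fst)).mul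
    (Finset.measurable_prod _ fun j _ => Finset.measurable_sum _ fun b _ => ?_))
  refine Measurable.mul ?_ ((measurable_uclip 1).comp ((measurable_pi_apply b).comp
    ((measurable_pi_apply j).comp (measurable_snd.comp measurable_fst))))
  have hp : Measurable fun z : UPar K × (Fin (r + 1) → Fin K → UI) => x fun p => z.2 p j :=
    S.xm.comp (measurable_pi_lambda _ fun p =>
      (measurable_pi_apply j).comp ((measurable_pi_apply p).comp measurable_snd))
  exact (measurable_const.add (hp.mul_const _)).div_const _

lemma abs_freeGain_le (q : UPar K) : |freeGain C ρ x q| ≤ cost ρ :=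
  abs_lev0_le (bdd_freeLog S.xb S.nonneg S.lt_one S.xm q)

lemma integrable_freeGain (μ : Measure (UPar K)) [IsFiniteMeasure μ] :
    Integrable (freeGain C ρ x) μ :=
  Integrable.mono' (integrable_const (cost ρ)) (measurable_freeGain S).aestronglyMeasurable
    (Eventually.of_forall fun q => abs_freeGain_le S q)

variable (hη : Integrable (fun h => h) η)
include hη

lemma meanGain_clauses [NeZero K] [NeZero N] (n : ℕ) :
    meanGain C ρ x η (umarkLaw β φ (placeClause K N)) n =
      markMean (umarkLaw β φ (placeClause K N)) (clauseMean K N ρ η) n +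
        n * (((K : ℝ) - 1) / K * freeBar K C ρ x β φ) := by
  have hK : (1 : ℝ) ≤ K := by exact_mod_cast NeZero.one_le
  set μ := umarkLaw β φ (placeClause K N)
  set f : UMark K N → ℝ := fun v => if v.1.1 = maskAll K then 0 else freeGain C ρ x v.2
  have hfm : Measurable f := Measurable.ite
    (measurableSet_eq_fun (measurable_fst.comp measurable_fst) measurable_const) measurable_const
    ((measurable_freeGain S).comp measurable_snd)
  have hfb : ∀ v, |f v| ≤ cost ρ := fun v => by
    simp only [f]; split_ifs
    exacts [by simpa using cost_nonneg S.nonneg S.lt_one, abs_freeGain_le S _]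
  have hfi : ∀ (ν : Measure (UMark K N)) [IsFiniteMeasure ν], Integrable f ν := fun ν _ =>
    Integrable.mono' (integrable_const (cost ρ)) hfm.aestronglyMeasurable
      (Eventually.of_forall hfb)
  have hμf : ∫ v, f v ∂μ = ((K : ℝ) - 1) / K * freeBar K C ρ x β φ := by
    have hne : maskNone K ≠ maskAll K := fun he => by
      simpa [maskNone, maskAll] using congrFun he 0
    have := Measure.smul_finite (umarkLaw β φ (placeFree K N))
      (ENNReal.ofReal_ne_top (r := ((K : ℝ) - 1) / K))
    simp only [μ, markLaw_clause β φ]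
    rw [integral_mixLaw (by positivity) (hfi _) (hfi _), integral_smul_measure,
      ENNReal.toReal_ofReal (div_nonneg (by linarith) (by linarith)),
      integral_congr_ae (g := fun _ => (0 : ℝ)) ((ae_placeAll β φ).mono fun v hv => by
        simp [f, hv]),
      integral_congr_ae (g := fun v => freeGain C ρ x v.2) ((ae_placeFree β φ).mono fun v hv => by
        simp [f, hv, hne])]
    simp only [integral_zero, mul_zero, zero_add, smul_eq_mul, umarkLaw, freeBar, parLaw]
    rw [integral_fun_snd]
    simp
  have hmask : ∀ᵐ v ∂μ, v.1.1 = maskAll K ∨ v.1.1 = maskNone K := by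
    simp only [μ, markLaw_clause β φ, mixLaw, ae_add_measure_iff]
    exact ⟨Measure.ae_smul_measure ((ae_placeAll β φ).mono fun v hv => Or.inl hv) _,
      Measure.ae_smul_measure ((ae_placeFree β φ).mono fun v hv => Or.inr hv) _⟩
  have hall : ∀ᵐ v ∂(Measure.pi fun _ : Fin n => μ),
      ∀ k, (v k).1.1 = maskAll K ∨ (v k).1.1 = maskNone K :=
    ae_all_iff.2 fun k =>
      (measurePreserving_eval (fun _ : Fin n => μ) k).quasiMeasurePreserving.ae hmask
  have hint := integrable_gain (C := C) (K := K) (N := N) S hη n (Measure.pi fun _ : Fin n => μ)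
  have hc : MarkFn (clauseMean K N ρ η) := markFn_clauseMean S.nonneg S.lt_one hη
  have hek : ∀ k, Integrable (fun v : Fin n → UMark K N => f (v k)) (Measure.pi fun _ : Fin n => μ) :=
    fun k => ((measurePreserving_eval (fun _ : Fin n => μ) k).integrable_comp
      hfm.aestronglyMeasurable).2 (hfi μ)
  have hev : ∀ k, ∫ v : Fin n → UMark K N, f (v k) ∂(Measure.pi fun _ : Fin n => μ) =
      ((K : ℝ) - 1) / K * freeBar K C ρ x β φ := fun k => by
    rw [← hμf]
    conv_rhs => rw [← (measurePreserving_eval (fun _ : Fin n => μ) k).map_eq]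
    exact (integral_map (φ := fun v : Fin n → UMark K N => v k) (measurable_pi_apply k).aemeasurable
      hfm.aestronglyMeasurable).symm
  have key : ∀ᵐ v ∂(Measure.pi fun _ : Fin n => μ),
      ∫ h, gain C ρ x h v ∂(Measure.pi fun _ : Fin N => η) =
        clauseMean K N ρ η n v + ∑ k, f (v k) := hall.mono fun v hv => by
    simp only [gain_clauses (C := C) S.xb S.nonneg S.lt_one S.xm _ v hv]
    obtain ⟨hi, -⟩ := integrable_fields (N := N) η hη ((N : ℝ) * Real.log 2) (cost ρ * n)
    rw [integral_add (f := fun h => clauseLog ρ h v) (Integrable.mono' hi ((measurable_clauseLog ρ).comp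
      measurable_prodMk_right).aestronglyMeasurable (Eventually.of_forall fun h => ?_))
      (integrable_const _)]
    · simp [clauseMean, f]
    · exact abs_clauseLog_le S.nonneg S.lt_one h v
  rw [meanGain, integral_integral_swap hint, integral_congr_ae key,
    integral_add (hc.integrable n) (integrable_finsetSum _ fun k _ => hek k),
    integral_finsetSum _ fun k _ => hek k]
  simp [hev, markMean, μ]

/-- The clause end of the interpolation. -/
theorem clause_end [NeZero K] [NeZero N] {lam : ℝ} (hl : 0 ≤ lam) :
    poissonAvg (K * lam * N) (meanGain C ρ x η (umarkLaw β φ (placeClause K N))) =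
      N * pressure lam ((parLaw K β φ).map (coreTable ρ)) η N +
        ((K : ℝ) - 1) * lam * N * freeBar K C ρ x β φ := by
  have hK : (1 : ℝ) ≤ K := by exact_mod_cast NeZero.one_le
  have hc : MarkFn (clauseMean K N ρ η) := markFn_clauseMean S.nonneg S.lt_one hη
  have hc0 : 0 ≤ (K : ℝ) * lam * N := by positivity
  rw [funext (meanGain_clauses (C := C) (β := β) (φ := φ) S hη),
    poissonAvg_add hc0 hc.linGrowth ⟨0, |((K : ℝ) - 1) / K * freeBar K C ρ x β φ|, fun n => by
      rw [abs_mul, Nat.abs_cast, zero_add, mul_comm]⟩]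
  congr 1
  · rw [markLaw_clause β φ, poissonAvg_markMean_mix (Neu := fun v : UMark K N => v.1.1 ≠ maskAll K)
      (q := ((K : ℝ) - 1) / K) (by positivity) (div_nonneg (by linarith) (by linarith))
      (by field_simp; ring) hc0 (by simp)
      (Measure.ae_smul_measure ((ae_placeFree β φ).mono fun v hv he => by
        exact absurd (congrFun (hv.symm.trans he) 0) (by simp [maskNone, maskAll])) _) hc ignores_clauseMean,
      show 1 / (K : ℝ) * (K * lam * N) = lam * N by field_simp, poissonAvg_clauseMean]
  · have := poissonAvg_affine ((K : ℝ) * lam * N) 0 (((K : ℝ) - 1) / K * freeBar K C ρ x β φ)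
    rw [show (fun n : ℕ => (n : ℝ) * (((K : ℝ) - 1) / K * freeBar K C ρ x β φ)) =
      fun n : ℕ => 0 + ((K : ℝ) - 1) / K * freeBar K C ρ x β φ * n by funext n; ring, this]
    field_simp
    ring

omit hη

/-- The second term of the trial functional. -/
theorem trialV_end [NeZero K] (lam : ℝ) :
    poissonAvg (((K : ℝ) - 1) * lam) (fun c => ∫ θs, trialAvg volume m (trialV x θs)
        ∂Measure.pi fun _ : Fin c => (parLaw K β φ).map (coreTable ρ)) =
      ((K : ℝ) - 1) * lam * freeBar K C ρ x β φ := by
  set μc := (parLaw K β φ).map (coreTable ρ)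
  have : IsProbabilityMeasure μc :=
    Measure.isProbabilityMeasure_map (measurable_coreTable ρ).aemeasurable
  suffices hn : ∀ c : ℕ, ∫ θs, trialAvg volume m (trialV x θs) ∂(Measure.pi fun _ : Fin c => μc) =
      0 + freeBar K C ρ x β φ * c by
    rw [funext hn, poissonAvg_affine]; ring
  intro c
  have hg : MeasurePreserving (fun (q : Fin c → UPar K) k => coreTable ρ (q k))
      (Measure.pi fun _ => parLaw K β φ) (Measure.pi fun _ : Fin c => μc) :=
    measurePreserving_pi _ _ fun _ => ⟨measurable_coreTable ρ, rfl⟩
  have hY : Measurable (Function.uncurry fun (θs : Fin c → Table K)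
      (ω : Fin (r + 1) → Fin c × Fin K → UI) => trialV x θs ω) := by
    show Measurable fun z : (Fin c → Table K) × (Fin (r + 1) → Fin c × Fin K → UI) =>
      ∏ k, ∑ σ, Real.exp (z.1 k σ) * ∏ j, msgWeight (msg x z.2 (k, j)) (σ j)
    refine Finset.measurable_prod _ fun k _ => Finset.measurable_sum _ fun σ _ =>
      (Real.measurable_exp.comp (f := fun z : (Fin c → Table K) ×
        (Fin (r + 1) → Fin c × Fin K → UI) => z.1 k σ) (by fun_prop)).mul
        (Finset.measurable_prod _ fun j _ => ?_)
    have hp : Measurable fun z : (Fin c → Table K) × (Fin (r + 1) → Fin c × Fin K → UI) =>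
        msg x z.2 (k, j) := S.xm.comp (measurable_pi_lambda _ fun p =>
      (measurable_pi_apply (k, j)).comp ((measurable_pi_apply p).comp measurable_snd))
    exact (measurable_const.add (hp.mul_const _)).div_const _
  conv_lhs => rw [← hg.map_eq]
  rw [integral_map hg.measurable.aemeasurable (measurable_trialAvg _ m hY).aestronglyMeasurable]
  have e : ∀ q : Fin c → UPar K, trialAvg volume m (trialV x fun k => coreTable ρ (q k)) =
      ∑ k, freeGain C ρ x (q k) := by
    intro q
    set U : Fin c → Msgs r (Fin c × Fin K) → ℝ := fun k s =>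
      Real.log (freeW ρ x (q k) fun j => s (k, j))
    have hb : ∀ k, Bdd (U k) (cost ρ) := fun k =>
      ⟨(bdd_freeLog S.xb S.nonneg S.lt_one S.xm (q k)).meas.comp
        (measurable_pi_lambda _ fun j => measurable_pi_apply _),
        fun s => (bdd_freeLog S.xb S.nonneg S.lt_one S.xm (q k)).le _⟩
    have hsb : Bdd (fun s : Msgs r (Fin c × Fin K) => ∑ k, U k s) (∑ _k : Fin c, cost ρ) :=
      ⟨Finset.measurable_sum _ fun k _ => (hb k).meas, fun s =>
        (Finset.abs_sum_le_sum_abs _ _).trans (Finset.sum_le_sum fun k _ => (hb k).le s)⟩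
    have h1 := lev0_sum (C := C) Finset.univ (fun k _ => hb k) (D := fun k => {p : Fin c × Fin K | p.1 = k})
      (fun k _ s s' hs => by simp only [U]; rw [funext fun j => hs (k, j) rfl])
      fun a _ b _ hab => Set.disjoint_left.2 fun p hp hp' => hab (hp.symm.trans hp')
    have h2 : ∀ k, lev0 C (U k) = freeGain C ρ x (q k) := fun k =>
      lev0_restrict (e := fun j => (k, j)) (fun a b hab => (Prod.ext_iff.1 hab).2)
        (bdd_freeLog S.xb S.nonneg S.lt_one S.xm _)
    rw [← Finset.sum_congr rfl fun k _ => h2 k, ← h1, lev0_eq_trialAvg S.cdf S.pos hsb]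
    congr 1
    funext ω
    rw [Real.exp_sum]
    refine Finset.prod_congr rfl fun k _ => ?_
    simp only [U, Real.exp_log (freeW_pos S _ _)]
    exact sum_table_mul_msg S.nonneg S.lt_one (q k) fun j p => ω p (k, j)
  simp only [e]
  have hek : ∀ k, Integrable (fun q : Fin c → UPar K => freeGain C ρ x (q k))
      (Measure.pi fun _ : Fin c => parLaw K β φ) := fun k =>
    ((measurePreserving_eval (fun _ : Fin c => parLaw K β φ) k).integrable_comp
      (measurable_freeGain S).aestronglyMeasurable).2 (integrable_freeGain S _)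
  rw [integral_finsetSum _ fun k _ => hek k]
  have hev : ∀ k, ∫ q : Fin c → UPar K, freeGain C ρ x (q k)
      ∂(Measure.pi fun _ : Fin c => parLaw K β φ) = freeBar K C ρ x β φ := fun k => by
    unfold freeBar
    conv_rhs => rw [← (measurePreserving_eval (fun _ : Fin c => parLaw K β φ) k).map_eq]
    exact (integral_map (φ := fun q : Fin c → UPar K => q k) (measurable_pi_apply k).aemeasurable
      (measurable_freeGain S).aestronglyMeasurable).symm
  simp [hev, mul_comm]

end Vale.Agent.P168
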