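import Vale.Agent.P168.Upper.Core.Means

/-!
# P168: the clause end of the interpolation
-/

namespace Vale.Agent.P168

open MeasureTheory Set Filter Vale.Agent.P157.Low Vale.Agent.P166F.Low.Cascade
open scoped ENNReal

variable {K N r : ℕ}

/-- The parameters `b`, `f`. -/
abbrev UPar (K : ℕ) := ℝ × (Fin K → Bool → ℝ)

/-- The law of the parameters. -/
noncomputable def parLaw (K : ℕ) (β : Measure ℝ) (φ : Measure (Bool → ℝ)) : Measure (UPar K) :=
  β.prod (Measure.pi fun _ : Fin K => φ)

instance {β : Measure ℝ} [IsProbabilityMeasure β] {φ : Measure (Bool → ℝ)} [IsProbabilityMeasure φ] :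
    IsProbabilityMeasure (parLaw K β φ) := by unfold parLaw; infer_instance

/-- The truncated clause function. -/
noncomputable def coreTable (ρ : ℝ) (q : UPar K) : Table K :=
  fun σ => Real.log (1 + uclip ρ q.1 * ∏ j, fOf q.2 j (σ j))

lemma measurable_coreTable (ρ : ℝ) : Measurable (coreTable (K := K) ρ) := by
  refine measurable_pi_lambda _ fun σ => Measurable.log (measurable_const.add
    (((measurable_uclip ρ).comp measurable_fst).mul (Finset.measurable_prod _ fun j _ => ?_)))
  exact (measurable_uclip 1).comp ((measurable_pi_apply _).comp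
    ((measurable_pi_apply j).comp measurable_snd))

variable {ρ : ℝ} {x : (Fin (r + 1) → UI) → ℝ} {C : Casc r} {m : Fin r → ℝ}

lemma coreTable_mem (h0 : 0 ≤ ρ) (h1 : ρ < 1) (q : UPar K) (σ : Fin K → Bool) :
    Real.exp (-cost ρ) ≤ 1 + uclip ρ q.1 * ∏ j, fOf q.2 j (σ j) ∧
      1 + uclip ρ q.1 * ∏ j, fOf q.2 j (σ j) ≤ Real.exp (cost ρ) := by
  refine one_add_mem h0 h1 ?_
  rw [abs_mul, Finset.abs_prod]
  calc _ ≤ ρ * 1 := mul_le_mul (abs_uclip_le h0 _)
        (Finset.prod_le_one (fun _ _ => abs_nonneg _) fun j _ => fOf_le _ _ _)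
        (Finset.prod_nonneg fun _ _ => abs_nonneg _) h0
    _ = ρ := mul_one ρ

lemma exp_coreTable (h0 : 0 ≤ ρ) (h1 : ρ < 1) (q : UPar K) (σ : Fin K → Bool) :
    Real.exp (coreTable ρ q σ) = 1 + uclip ρ q.1 * ∏ j, fOf q.2 j (σ j) :=
  Real.exp_log ((Real.exp_pos _).trans_le (coreTable_mem h0 h1 q σ).1)

/-- The weight of a free factor. -/
noncomputable def freeW (ρ : ℝ) (x : (Fin (r + 1) → UI) → ℝ) (q : UPar K) (t : Msgs r (Fin K)) : ℝ :=
  1 + uclip ρ q.1 * ∏ j, bar (fOf q.2 j) (x (t j))

lemma sum_table_mul_msg (h0 : 0 ≤ ρ) (h1 : ρ < 1) (q : UPar K) (t : Msgs r (Fin K)) :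
    ∑ σ, Real.exp (coreTable ρ q σ) * ∏ j, msgWeight (x (t j)) (σ j) = freeW ρ x q t := by
  simp only [exp_coreTable h0 h1, add_mul, one_mul, Finset.sum_add_distrib, mul_assoc,
    ← Finset.mul_sum, ← Finset.prod_mul_distrib, freeW, bar]
  rw [← Fintype.prod_sum (fun j s => msgWeight (x (t j)) s),
    ← Fintype.prod_sum (fun j s => fOf q.2 j s * msgWeight (x (t j)) s)]
  simp only [sum_msgWeight, Finset.prod_const_one, mul_comm (fOf q.2 _ _)]

/-- The nested log-moment of a free factor. -/
noncomputable def freeGain (C : Casc r) (ρ : ℝ) (x : (Fin (r + 1) → UI) → ℝ) (q : UPar K) : ℝ :=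
  lev0 C fun t : Msgs r (Fin K) => Real.log (freeW ρ x q t)

/-- The log partition function of the marks whose every position is attached. -/
noncomputable def clauseLog (ρ : ℝ) (h : Fin N → ℝ) {κ : Type} [Fintype κ] (u : κ → UMark K N) : ℝ :=
  Real.log (∑ σ, fieldW h σ * ∏ k, if (u k).1.1 = maskAll K then
    Real.exp (coreTable ρ (u k).2 fun j => σ ((u k).1.2 j)) else 1)

variable (hxb : ∀ ω, |x ω| ≤ 1) (h0 : 0 ≤ ρ) (h1 : ρ < 1) (hx : Measurable x)
include hxb h0 h1 hx

lemma bdd_freeLog (q : UPar K) :
    Bdd (fun t : Msgs r (Fin K) => Real.log (freeW ρ x q t)) (cost ρ) := by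
  refine ⟨Measurable.log (measurable_const.add (measurable_const.mul
    (Finset.measurable_prod _ fun j _ => ?_))), fun t => ?_⟩
  · unfold bar msgWeight
    fun_prop
  · obtain ⟨l, u⟩ := one_add_mem (t := uclip ρ q.1 * ∏ j, bar (fOf q.2 j) (x (t j))) h0 h1 (by
      rw [abs_mul, Finset.abs_prod]
      calc _ ≤ ρ * 1 := mul_le_mul (abs_uclip_le h0 _)
            (Finset.prod_le_one (fun _ _ => abs_nonneg _) fun j _ =>
              abs_bar_le (fOf_le _ _) (hxb _))
            (Finset.prod_nonneg fun _ _ => abs_nonneg _) h0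
        _ = ρ := mul_one ρ)
    rw [abs_le]
    refine ⟨?_, ?_⟩
    · simpa [freeW] using Real.log_le_log (Real.exp_pos _) l
    · simpa [freeW] using Real.log_le_log ((Real.exp_pos _).trans_le l) u

/-- Free factors separate from the clauses. -/
lemma gain_clauses {n : ℕ} [NeZero K] (h : Fin N → ℝ) (u : Fin n → UMark K N)
    (hu : ∀ k, (u k).1.1 = maskAll K ∨ (u k).1.1 = maskNone K) :
    gain C ρ x h u = clauseLog ρ h u +
      ∑ k, if (u k).1.1 = maskAll K then 0 else freeGain C ρ x (u k).2 := by
  classical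
  have hne : maskNone K ≠ maskAll K := fun he => by
    simpa [maskNone, maskAll] using congrFun he 0
  set U : Fin n → Msgs r (Fin n × Fin K) → ℝ := fun k s => if (u k).1.1 = maskAll K then 0 else
    Real.log (freeW ρ x (u k).2 fun j => s (k, j))
  have hb : ∀ k, Bdd (U k) (cost ρ) := fun k => by
    by_cases hk : (u k).1.1 = maskAll K
    · simp only [U, if_pos hk]
      exact ⟨measurable_const, fun _ => by simpa using cost_nonneg h0 h1⟩
    · simp only [U, if_neg hk]
      exact ⟨(bdd_freeLog hxb h0 h1 hx _).meas.comp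
        (measurable_pi_lambda _ fun j => measurable_pi_apply _),
        fun s => (bdd_freeLog hxb h0 h1 hx _).le _⟩
  have hD : ∀ k, DependsOnly (U k) {p | p.1 = k} := fun k s s' hs => by
    simp only [U]
    rw [funext fun j => hs (k, j) rfl]
  have hpot : ∀ s, pot ρ x h u s = clauseLog ρ h u + ∑ k, U k s := fun s => by
    have hfw : ∀ k, 0 < (if (u k).1.1 = maskAll K then 1 else freeW ρ x (u k).2 fun j => s (k, j)) := by
      intro k
      split_ifs
      · exact one_pos
      · refine (Real.exp_pos (-cost ρ)).trans_le (one_add_mem h0 h1 ?_).1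
        rw [abs_mul, Finset.abs_prod]
        exact (mul_le_mul (abs_uclip_le h0 _) (Finset.prod_le_one (fun _ _ => abs_nonneg _)
          fun j _ => abs_bar_le (fOf_le _ _) (hxb _)) (Finset.prod_nonneg fun _ _ => abs_nonneg _)
          h0).trans (mul_one ρ).le
    have hsum : 0 < ∑ σ, fieldW h σ * ∏ k, if (u k).1.1 = maskAll K then
        Real.exp (coreTable ρ (u k).2 fun j => σ ((u k).1.2 j)) else 1 :=
      Finset.sum_pos (fun σ _ => mul_pos (Real.exp_pos _) (Finset.prod_pos fun k _ => by
        split_ifs; exacts [Real.exp_pos _, one_pos])) Finset.univ_nonempty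
    have e : ∀ k, U k s = Real.log
        (if (u k).1.1 = maskAll K then 1 else freeW ρ x (u k).2 fun j => s (k, j)) := fun k => by
      simp only [U]; split_ifs <;> simp
    simp only [e]
    rw [← Real.log_prod fun k _ => (hfw k).ne', clauseLog,
      ← Real.log_mul hsum.ne' (Finset.prod_pos fun k _ => hfw k).ne', pot, Zpot, Finset.sum_mul]
    congr 1
    refine Finset.sum_congr rfl fun σ _ => ?_
    rw [mul_assoc, ← Finset.prod_mul_distrib]
    refine congrArg _ (Finset.prod_congr rfl fun k _ => ?_)
    rcases hu k with hk | hk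
    · rw [if_pos hk, if_pos hk, mul_one, exp_coreTable h0 h1, wgt]
      simp [fac, hk, maskAll]
    · rw [if_neg (hk ▸ hne), if_neg (hk ▸ hne), one_mul, wgt, freeW]
      simp [fac, hk, maskNone]
  have hsb : Bdd (fun s : Msgs r (Fin n × Fin K) => ∑ k, U k s) (∑ _k : Fin n, cost ρ) :=
    ⟨Finset.measurable_sum _ fun k _ => (hb k).meas, fun s =>
      (Finset.abs_sum_le_sum_abs _ _).trans (Finset.sum_le_sum fun k _ => (hb k).le s)⟩
  rw [gain, funext hpot, lev0_add (L := |clauseLog ρ h u|) (D := ∅)
    ⟨measurable_const, fun _ => le_rfl⟩ hsb (fun _ _ _ => rfl)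
    fun s s' hs => by rw [funext fun i => hs i (by simp)], lev0_const,
    lev0_sum Finset.univ (fun k _ => hb k) (fun k _ => hD k) fun a _ b _ hab =>
      Set.disjoint_left.2 fun p hp hp' => hab (hp.symm.trans hp')]
  congr 1
  refine Finset.sum_congr rfl fun k _ => ?_
  by_cases hk : (u k).1.1 = maskAll K
  · simp only [U, if_pos hk]
    exact lev0_const 0
  · simp only [U, if_neg hk]
    exact lev0_restrict (e := fun j => (k, j)) (fun a b hab => (Prod.ext_iff.1 hab).2)
      (bdd_freeLog hxb h0 h1 hx _)

omit hxb h0 h1 hx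

variable {β : Measure ℝ} [IsProbabilityMeasure β] {φ : Measure (Bool → ℝ)} [IsProbabilityMeasure φ]
  {η : Measure ℝ} [IsProbabilityMeasure η]

/-- The mean of the clauses' log partition function over the fields. -/
noncomputable def clauseMean (K N : ℕ) (ρ : ℝ) (η : Measure ℝ) (n : ℕ) (v : Fin n → UMark K N) : ℝ :=
  ∫ h, clauseLog ρ h v ∂(Measure.pi fun _ : Fin N => η)

/-- The clause marks. -/
noncomputable def placeAll (K N : ℕ) : Measure ((Fin K → Bool) × (Fin K → Fin N)) :=
  (Measure.dirac (maskAll K)).prod (Measure.pi fun _ : Fin K => unif N)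

/-- The free marks. -/
noncomputable def placeFree (K N : ℕ) : Measure ((Fin K → Bool) × (Fin K → Fin N)) :=
  (Measure.dirac (maskNone K)).prod (Measure.pi fun _ : Fin K => unif N)

instance [NeZero N] : IsProbabilityMeasure (placeAll K N) := by unfold placeAll; infer_instance

instance [NeZero N] : IsProbabilityMeasure (placeFree K N) := by unfold placeFree; infer_instance

lemma markLaw_clause (β : Measure ℝ) [IsProbabilityMeasure β] (φ : Measure (Bool → ℝ))
    [IsProbabilityMeasure φ] [NeZero N] :
    umarkLaw β φ (placeClause K N) = mixLaw (1 / K) (umarkLaw β φ (placeAll K N))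
      (ENNReal.ofReal (((K : ℝ) - 1) / K) • umarkLaw β φ (placeFree K N)) := by
  have := Measure.smul_finite (Measure.dirac (maskAll K))
    (ENNReal.ofReal_ne_top (r := 1 / (K : ℝ)))
  have := Measure.smul_finite (Measure.dirac (maskNone K))
    (ENNReal.ofReal_ne_top (r := ((K : ℝ) - 1) / K))
  simp only [umarkLaw, placeClause, placeAll, placeFree, mixLaw, Measure.add_prod,
    Measure.prod_smul_left]

lemma ae_placeFree (β : Measure ℝ) [IsProbabilityMeasure β] (φ : Measure (Bool → ℝ))
    [IsProbabilityMeasure φ] [NeZero N] :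
    ∀ᵐ v ∂umarkLaw β φ (placeFree K N), v.1.1 = maskNone K := by
  have h : ∀ᵐ q ∂placeFree K N, q.1 = maskNone K :=
    Measure.quasiMeasurePreserving_fst.ae (p := fun t => t = maskNone K) (by simp)
  exact Measure.quasiMeasurePreserving_fst.ae h

lemma ae_placeAll (β : Measure ℝ) [IsProbabilityMeasure β] (φ : Measure (Bool → ℝ))
    [IsProbabilityMeasure φ] [NeZero N] :
    ∀ᵐ v ∂umarkLaw β φ (placeAll K N), v.1.1 = maskAll K := by
  have h : ∀ᵐ q ∂placeAll K N, q.1 = maskAll K :=
    Measure.quasiMeasurePreserving_fst.ae (p := fun t => t = maskAll K) (by simp)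
  exact Measure.quasiMeasurePreserving_fst.ae h

lemma measurable_clauseLog {n : ℕ} (ρ : ℝ) :
    Measurable fun p : (Fin N → ℝ) × (Fin n → UMark K N) => clauseLog ρ p.1 p.2 := by
  refine Measurable.log (Finset.measurable_sum _ fun σ _ => ?_)
  refine (Real.measurable_exp.comp (Finset.measurable_sum _ fun i _ =>
    ((measurable_pi_apply i).comp measurable_fst).mul_const _)).mul
      (Finset.measurable_prod _ fun k _ => ?_)
  have hk : Measurable fun p : (Fin N → ℝ) × (Fin n → UMark K N) => p.2 k :=
    (measurable_pi_apply k).comp measurable_snd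
  refine Measurable.ite (measurableSet_eq_fun (measurable_fst.comp (measurable_fst.comp hk))
    measurable_const) ?_ measurable_const
  have e : ∀ q : UMark K N, coreTable ρ q.2 (fun j => σ (q.1.2 j)) =
      ∑ t : Fin K → Fin N, if q.1.2 = t then coreTable ρ q.2 (fun j => σ (t j)) else 0 := fun q => by
    simp
  simp only [e]
  exact Real.measurable_exp.comp (Finset.measurable_sum _ fun t _ => Measurable.ite
    (measurableSet_eq_fun (measurable_snd.comp (measurable_fst.comp hk)) measurable_const)
    ((measurable_pi_apply _).comp ((measurable_coreTable ρ).comp (measurable_snd.comp hk)))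
    measurable_const)

lemma abs_clauseLog_le (h0 : 0 ≤ ρ) (h1 : ρ < 1) {n : ℕ} (h : Fin N → ℝ) (v : Fin n → UMark K N) :
    |clauseLog ρ h v| ≤ (N : ℝ) * Real.log 2 + ∑ i, |h i| + cost ρ * n := by
  set w : (Fin N → Bool) → ℝ := fun σ => ∑ i, h i * spin (σ i) +
    ∑ k, if (v k).1.1 = maskAll K then coreTable ρ (v k).2 (fun j => σ ((v k).1.2 j)) else 0
  have he : clauseLog ρ h v = Real.log (∑ σ, Real.exp (w σ)) := by
    unfold clauseLog fieldW
    refine congrArg Real.log (Finset.sum_congr rfl fun σ _ => ?_)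
    simp only [w, Real.exp_add, Real.exp_sum]
    refine congrArg _ (Finset.prod_congr rfl fun k _ => ?_)
    split_ifs <;> simp
  have hw : ∀ σ, |w σ| ≤ ∑ i, |h i| + cost ρ * n := fun σ => by
    refine (abs_add_le _ _).trans (add_le_add ((Finset.abs_sum_le_sum_abs _ _).trans
      (Finset.sum_le_sum fun i _ => ?_)) ?_)
    · rw [abs_mul]; cases σ i <;> simp [spin]
    · refine (Finset.abs_sum_le_sum_abs _ _).trans ?_
      refine (Finset.sum_le_card_nsmul _ _ (cost ρ) fun k _ => ?_).trans (le_of_eq (by simp; ring))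
      split_ifs
      · obtain ⟨l, u⟩ := coreTable_mem h0 h1 (v k).2 fun j => σ ((v k).1.2 j)
        rw [coreTable, abs_le]
        exact ⟨by simpa using Real.log_le_log (Real.exp_pos _) l,
          by simpa using Real.log_le_log ((Real.exp_pos _).trans_le l) u⟩
      · simpa using cost_nonneg h0 h1
  have hcard : ((Finset.univ : Finset (Fin N → Bool)).card : ℝ) = Real.exp (N * Real.log 2) := by
    rw [Real.exp_nat_mul, Real.exp_log two_pos]; simp
  set c := ∑ i, |h i| + cost ρ * n
  have hlo := Finset.card_nsmul_le_sum Finset.univ (fun σ => Real.exp (w σ)) (Real.exp (-c))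
    fun σ _ => Real.exp_le_exp.2 (abs_le.1 (hw σ)).1
  have hhi := Finset.sum_le_card_nsmul Finset.univ (fun σ => Real.exp (w σ)) (Real.exp c)
    fun σ _ => Real.exp_le_exp.2 (abs_le.1 (hw σ)).2
  rw [nsmul_eq_mul, hcard, ← Real.exp_add] at hlo hhi
  have hN : 0 ≤ (N : ℝ) * Real.log 2 := mul_nonneg (Nat.cast_nonneg _) (Real.log_nonneg one_le_two)
  have a1 := Real.log_le_log (Real.exp_pos _) hlo
  have a2 := Real.log_le_log ((Real.exp_pos _).trans_le hlo) hhi
  rw [Real.log_exp] at a1 a2
  rw [he, abs_le]
  constructor <;> linarith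

lemma markFn_clauseMean (h0 : 0 ≤ ρ) (h1 : ρ < 1) (hη : Integrable (fun h => h) η) :
    MarkFn (clauseMean K N ρ η) := by
  refine ⟨fun n => ((measurable_clauseLog ρ).comp measurable_swap).stronglyMeasurable
    |>.integral_prod_right' (ν := Measure.pi fun _ : Fin N => η) |>.measurable,
    (N : ℝ) * Real.log 2 + N * (∫ t, |t| ∂η), cost ρ, fun n v => ?_⟩
  obtain ⟨hi, he⟩ := integrable_fields (N := N) η hη ((N : ℝ) * Real.log 2) (cost ρ * n)
  refine (norm_integral_le_of_norm_le (f := fun h => clauseLog ρ h v) hi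
    (Eventually.of_forall fun h => ?_)).trans he.le
  exact abs_clauseLog_le h0 h1 h v

omit [IsProbabilityMeasure η] in
lemma ignores_clauseMean [NeZero K] :
    Ignores (fun v : UMark K N => v.1.1 ≠ maskAll K) (clauseMean K N ρ η) := by
  intro n i y v hy
  unfold clauseMean clauseLog
  simp only [Fin.prod_univ_succAbove _ i, Fin.insertNth_apply_same, Fin.insertNth_apply_succAbove,
    if_neg hy, one_mul]

/-- The clauses' part of the pressure. -/
theorem poissonAvg_clauseMean (lam : ℝ) [NeZero N] :
    poissonAvg (lam * N) (markMean (umarkLaw β φ (placeAll K N)) (clauseMean K N ρ η)) =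
      N * pressure lam ((parLaw K β φ).map (coreTable ρ)) η N := by
  set μc := (parLaw K β φ).map (coreTable ρ)
  have : IsProbabilityMeasure μc :=
    Measure.isProbabilityMeasure_map (measurable_coreTable ρ).aemeasurable
  rw [pressure, ← mul_assoc, mul_one_div_cancel (NeZero.ne (N : ℝ)), one_mul]
  congr 1
  funext n
  set g : UMark K N → Table K × (Fin K → Fin N) := fun v => (coreTable ρ v.2, v.1.2)
  have hg : MeasurePreserving g (umarkLaw β φ (placeAll K N))
      (μc.prod (Measure.pi fun _ : Fin K => unif N)) := by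
    have hp : MeasurePreserving (fun q : (Fin K → Bool) × (Fin K → Fin N) => q.2)
        (placeAll K N) (Measure.pi fun _ : Fin K => unif N) := measurePreserving_snd
    exact (Measure.measurePreserving_swap.comp (hp.prod
      (⟨measurable_coreTable ρ, rfl⟩ : MeasurePreserving (coreTable ρ) (parLaw K β φ) μc)))
  have hG : MeasurePreserving (fun (v : Fin n → UMark K N) k => g (v k))
      (Measure.pi fun _ => umarkLaw β φ (placeAll K N))
      (Measure.pi fun _ : Fin n => μc.prod (Measure.pi fun _ : Fin K => unif N)) :=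
    measurePreserving_pi _ _ fun _ => hg
  have hm : Measurable fun p : (Fin n → Table K × (Fin K → Fin N)) × (Fin N → ℝ) =>
      Real.log (∑ σ, Real.exp (hamiltonian p.1 p.2 σ)) := by
    refine Measurable.log (Finset.measurable_sum _ fun σ _ => Real.measurable_exp.comp ?_)
    refine Measurable.add (Finset.measurable_sum _ fun k _ => ?_)
      (Finset.measurable_sum _ fun i _ => ((measurable_pi_apply i).comp measurable_snd).mul_const _)
    have hk : Measurable fun p : (Fin n → Table K × (Fin K → Fin N)) × (Fin N → ℝ) => p.1 k :=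
      (measurable_pi_apply k).comp measurable_fst
    have e : ∀ q : Table K × (Fin K → Fin N), q.1 (fun j => σ (q.2 j)) =
        ∑ t : Fin K → Fin N, if q.2 = t then q.1 (fun j => σ (t j)) else 0 := fun q => by simp
    simp only [e]
    exact Finset.measurable_sum _ fun t _ => Measurable.ite
      (measurableSet_eq_fun (measurable_snd.comp hk) measurable_const)
      ((measurable_pi_apply _).comp (measurable_fst.comp hk)) measurable_const
  unfold markMean clauseMean
  conv_rhs => rw [← hG.map_eq]
  rw [integral_map hG.measurable.aemeasurable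
    hm.stronglyMeasurable.integral_prod_right'.aestronglyMeasurable]
  have hae : ∀ᵐ v ∂(Measure.pi fun _ : Fin n => umarkLaw β φ (placeAll K N)),
      ∀ k, (v k).1.1 = maskAll K :=
    ae_all_iff.2 fun k => (measurePreserving_eval
      (fun _ : Fin n => umarkLaw β φ (placeAll K N)) k).quasiMeasurePreserving.ae (ae_placeAll β φ)
  refine integral_congr_ae (hae.mono fun v hv => integral_congr_ae (Eventually.of_forall fun h => ?_))
  simp only [clauseLog, hamiltonian, g, hv, if_true, Real.exp_add, fieldW, Real.exp_sum, mul_comm]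

end Vale.Agent.P168
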