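import Vale.Agent.P168.Upper.Towers
import Vale.Agent.P168.Upper.Param

/-!
# P168: the marks of the interpolation and their potential
-/

namespace Vale.Agent.P168

open MeasureTheory Set Filter Vale.Agent.P157.Low Vale.Agent.P166F.Low.Cascade

variable {K N r : ℕ}

/-- A mark: which positions are attached to sites, the sites, and the parameters `b`, `f`. -/
abbrev UMark (K N : ℕ) := ((Fin K → Bool) × (Fin K → Fin N)) × ℝ × (Fin K → Bool → ℝ)

/-- Truncation to `[-ρ, ρ]`. -/
noncomputable def uclip (ρ t : ℝ) : ℝ := max (-ρ) (min t ρ)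

lemma abs_uclip_le {ρ : ℝ} (h : 0 ≤ ρ) (t : ℝ) : |uclip ρ t| ≤ ρ :=
  abs_le.2 ⟨le_max_left _ _, max_le (by linarith) (min_le_right _ _)⟩

lemma uclip_of_abs_le {ρ t : ℝ} (h : |t| ≤ ρ) : uclip ρ t = t := by
  obtain ⟨h1, h2⟩ := abs_le.1 h
  rw [uclip, min_eq_left h2, max_eq_right h1]

lemma measurable_uclip (ρ : ℝ) : Measurable (uclip ρ) := by unfold uclip; fun_prop

/-- The average of `g` under a message. -/
noncomputable def bar (g : Bool → ℝ) (z : ℝ) : ℝ := ∑ s, msgWeight z s * g s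

lemma umsgWeight_nonneg {z : ℝ} (hz : |z| ≤ 1) (s : Bool) : 0 ≤ msgWeight z s := by
  obtain ⟨h1, h2⟩ := abs_le.1 hz
  cases s <;> simp [msgWeight, spin] <;> linarith

lemma sum_msgWeight (z : ℝ) : ∑ s, msgWeight z s = 1 := by
  simp [msgWeight, spin]; ring

lemma abs_bar_le {g : Bool → ℝ} {z : ℝ} (hg : ∀ s, |g s| ≤ 1) (hz : |z| ≤ 1) : |bar g z| ≤ 1 := by
  refine (Finset.abs_sum_le_sum_abs _ _).trans ?_
  calc ∑ s, |msgWeight z s * g s| ≤ ∑ s, msgWeight z s := Finset.sum_le_sum fun s _ => by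
        rw [abs_mul, abs_of_nonneg (umsgWeight_nonneg hz s)]
        exact mul_le_of_le_one_right (umsgWeight_nonneg hz s) (hg s)
    _ = 1 := sum_msgWeight z

variable (ρ : ℝ) (x : (Fin (r + 1) → UI) → ℝ)

/-- The truncated `f_j`. -/
noncomputable def fOf (f : Fin K → Bool → ℝ) (j : Fin K) (s : Bool) : ℝ := uclip 1 (f j s)

/-- The factor of one position. -/
noncomputable def fac (u : UMark K N) (σ : Fin N → Bool) (s : Msgs r (Fin K)) (j : Fin K) : ℝ :=
  if u.1.1 j then fOf u.2.2 j (σ (u.1.2 j)) else bar (fOf u.2.2 j) (x (s j))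

/-- The weight of a mark. -/
noncomputable def wgt (u : UMark K N) (σ : Fin N → Bool) (s : Msgs r (Fin K)) : ℝ :=
  1 + uclip ρ u.2.1 * ∏ j, fac x u σ s j

/-- The weight of the fields. -/
noncomputable def fieldW (h : Fin N → ℝ) (σ : Fin N → Bool) : ℝ :=
  Real.exp (∑ i, h i * spin (σ i))

variable {κ : Type} [Fintype κ]

/-- The partition function of a family of marks. -/
noncomputable def Zpot (h : Fin N → ℝ) (u : κ → UMark K N) (s : Msgs r (κ × Fin K)) : ℝ :=
  ∑ σ, fieldW h σ * ∏ k, wgt ρ x (u k) σ fun j => s (k, j)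

/-- The potential of a family of marks. -/
noncomputable def pot (h : Fin N → ℝ) (u : κ → UMark K N) (s : Msgs r (κ × Fin K)) : ℝ :=
  Real.log (Zpot ρ x h u s)

/-- The largest logarithm of a weight. -/
noncomputable def cost : ℝ := -Real.log (1 - ρ)

/-- The bound on a potential. -/
noncomputable def potBound (h : Fin N → ℝ) (n : ℕ) : ℝ :=
  (N : ℝ) * Real.log 2 + ∑ i, |h i| + cost ρ * n

variable {ρ x}

lemma fOf_le (f : Fin K → Bool → ℝ) (j : Fin K) (s : Bool) : |fOf f j s| ≤ 1 :=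
  abs_uclip_le zero_le_one _

lemma cost_nonneg (h0 : 0 ≤ ρ) (h1 : ρ < 1) : 0 ≤ cost ρ :=
  neg_nonneg.2 (Real.log_nonpos (by linarith) (by linarith))

lemma one_add_mem (h0 : 0 ≤ ρ) (h1 : ρ < 1) {t : ℝ} (ht : |t| ≤ ρ) :
    Real.exp (-cost ρ) ≤ 1 + t ∧ 1 + t ≤ Real.exp (cost ρ) := by
  obtain ⟨l, u⟩ := abs_le.1 ht
  have hp : 0 < 1 - ρ := by linarith
  rw [cost, neg_neg, Real.exp_log hp, Real.exp_neg, Real.exp_log hp]
  refine ⟨by linarith, ?_⟩
  rw [← one_div, le_div_iff₀ hp]
  nlinarith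

variable (hxb : ∀ ω, |x ω| ≤ 1)
include hxb

lemma abs_fac_le (u : UMark K N) (σ : Fin N → Bool) (s : Msgs r (Fin K)) (j : Fin K) :
    |fac x u σ s j| ≤ 1 := by
  unfold fac
  split_ifs
  exacts [fOf_le _ _ _, abs_bar_le (fOf_le _ _) (hxb _)]

lemma abs_prod_fac_le (u : UMark K N) (σ : Fin N → Bool) (s : Msgs r (Fin K)) :
    |∏ j, fac x u σ s j| ≤ 1 := by
  rw [Finset.abs_prod]
  exact Finset.prod_le_one (fun j _ => abs_nonneg _) fun j _ => abs_fac_le hxb u σ s j

variable (h0 : 0 ≤ ρ) (h1 : ρ < 1)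
include h0 h1

lemma wgt_mem (u : UMark K N) (σ : Fin N → Bool) (s : Msgs r (Fin K)) :
    Real.exp (-cost ρ) ≤ wgt ρ x u σ s ∧ wgt ρ x u σ s ≤ Real.exp (cost ρ) := by
  refine one_add_mem h0 h1 ?_
  rw [abs_mul]
  calc |uclip ρ u.2.1| * |∏ j, fac x u σ s j| ≤ ρ * 1 :=
        mul_le_mul (abs_uclip_le h0 _) (abs_prod_fac_le hxb u σ s) (abs_nonneg _) h0
    _ = ρ := mul_one ρ

lemma wgt_pos (u : UMark K N) (σ : Fin N → Bool) (s : Msgs r (Fin K)) : 0 < wgt ρ x u σ s :=
  (Real.exp_pos _).trans_le (wgt_mem hxb h0 h1 u σ s).1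

lemma Zpot_mem (h : Fin N → ℝ) (u : κ → UMark K N) (s : Msgs r (κ × Fin K)) :
    Real.exp (-potBound ρ h (Fintype.card κ)) ≤ Zpot ρ x h u s ∧
      Zpot ρ x h u s ≤ Real.exp (potBound ρ h (Fintype.card κ)) := by
  set c := ∑ i, |h i| + cost ρ * (Fintype.card κ : ℝ)
  have hsum : ∀ σ : Fin N → Bool, |∑ i, h i * spin (σ i)| ≤ ∑ i, |h i| := fun σ =>
    (Finset.abs_sum_le_sum_abs _ _).trans (Finset.sum_le_sum fun i _ => by
      rw [abs_mul]; cases σ i <;> simp [spin])
  have hterm : ∀ σ, Real.exp (-c) ≤ fieldW h σ * ∏ k, wgt ρ x (u k) σ (fun j => s (k, j)) ∧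
      fieldW h σ * ∏ k, wgt ρ x (u k) σ (fun j => s (k, j)) ≤ Real.exp c := fun σ => by
    obtain ⟨a1, a2⟩ := abs_le.1 (hsum σ)
    have hw := fun k => wgt_mem hxb h0 h1 (u k) σ fun j => s (k, j)
    have p1 : Real.exp (-(cost ρ * (Fintype.card κ : ℝ))) ≤
        ∏ k, wgt ρ x (u k) σ (fun j => s (k, j)) := by
      have := Finset.prod_le_prod (s := Finset.univ) (fun k _ => (Real.exp_pos _).le)
        (fun k _ => (hw k).1)
      rwa [Finset.prod_const, Finset.card_univ, ← Real.exp_nat_mul, mul_comm, neg_mul] at this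
    have p2 : ∏ k, wgt ρ x (u k) σ (fun j => s (k, j)) ≤
        Real.exp (cost ρ * (Fintype.card κ : ℝ)) := by
      have := Finset.prod_le_prod (s := Finset.univ) (fun k _ => (wgt_pos hxb h0 h1 (u k) σ _).le)
        (fun k _ => (hw k).2)
      rwa [Finset.prod_const, Finset.card_univ, ← Real.exp_nat_mul, mul_comm] at this
    simp only [c, neg_add, Real.exp_add, fieldW]
    exact ⟨mul_le_mul (Real.exp_le_exp.2 a1) p1 (Real.exp_pos _).le (Real.exp_pos _).le,
      mul_le_mul (Real.exp_le_exp.2 a2) p2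
        (Finset.prod_nonneg fun k _ => (wgt_pos hxb h0 h1 (u k) σ _).le) (Real.exp_pos _).le⟩
  have hcard : ((Finset.univ : Finset (Fin N → Bool)).card : ℝ) = Real.exp (N * Real.log 2) := by
    rw [Real.exp_nat_mul, Real.exp_log two_pos]; simp
  have hlo := Finset.card_nsmul_le_sum Finset.univ
    (fun σ => fieldW h σ * ∏ k, wgt ρ x (u k) σ fun j => s (k, j)) _ fun σ _ => (hterm σ).1
  have hhi := Finset.sum_le_card_nsmul Finset.univ
    (fun σ => fieldW h σ * ∏ k, wgt ρ x (u k) σ fun j => s (k, j)) _ fun σ _ => (hterm σ).2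
  rw [nsmul_eq_mul, hcard, ← Real.exp_add] at hlo hhi
  have hN : 0 ≤ (N : ℝ) * Real.log 2 := mul_nonneg (Nat.cast_nonneg _) (Real.log_nonneg one_le_two)
  refine ⟨le_trans (Real.exp_le_exp.2 ?_) hlo, hhi.trans (Real.exp_le_exp.2 ?_)⟩ <;>
    simp only [potBound, c] <;> linarith

lemma Zpot_pos (h : Fin N → ℝ) (u : κ → UMark K N) (s : Msgs r (κ × Fin K)) :
    0 < Zpot ρ x h u s :=
  (Real.exp_pos _).trans_le (Zpot_mem hxb h0 h1 h u s).1

omit h0 h1 hxb

variable {Z : Type} [MeasurableSpace Z] (hx : Measurable x)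
include hx

lemma measurable_wgt' {u : Z → UMark K N} (hu : Measurable u) {s : Z → Msgs r (Fin K)}
    (hs : Measurable s) (σ : Fin N → Bool) : Measurable fun z => wgt ρ x (u z) σ (s z) := by
  have hf : ∀ (j : Fin K) (b : Bool), Measurable fun z => fOf (u z).2.2 j b := fun j b =>
    (measurable_uclip 1).comp ((measurable_pi_apply b).comp ((measurable_pi_apply j).comp
      (measurable_snd.comp (measurable_snd.comp hu))))
  have hi : ∀ j, Measurable fun z => (u z).1.2 j := fun j =>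
    (measurable_pi_apply j).comp (measurable_snd.comp (measurable_fst.comp hu))
  have hfac : ∀ j, Measurable fun z => fac x (u z) σ (s z) j := fun j => by
    unfold fac
    refine Measurable.ite (measurableSet_eq_fun ((measurable_pi_apply j).comp
      (measurable_fst.comp (measurable_fst.comp hu))) measurable_const) ?_ ?_
    · have e : (fun z => fOf (u z).2.2 j (σ ((u z).1.2 j))) =
          fun z => ∑ i : Fin N, if (u z).1.2 j = i then fOf (u z).2.2 j (σ i) else 0 := by
        funext z; simp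
      rw [e]
      exact Finset.measurable_sum _ fun i _ => Measurable.ite
        (measurableSet_eq_fun (hi j) measurable_const) (hf j _) measurable_const
    · unfold bar msgWeight
      exact Finset.measurable_sum _ fun b _ => (((measurable_const.add
        (((hx.comp ((measurable_pi_apply j).comp hs))).mul_const _)).div_const _)).mul (hf j b)
  exact measurable_const.add (((measurable_uclip ρ).comp (measurable_fst.comp
    (measurable_snd.comp hu))).mul (Finset.measurable_prod _ fun j _ => hfac j))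

lemma measurable_Zpot' {h : Z → Fin N → ℝ} (hh : Measurable h) {u : Z → κ → UMark K N}
    (hu : Measurable u) {s : Z → Msgs r (κ × Fin K)} (hs : Measurable s) :
    Measurable fun z => Zpot ρ x (h z) (u z) (s z) :=
  Finset.measurable_sum _ fun σ _ => (Real.measurable_exp.comp (Finset.measurable_sum _ fun i _ =>
    ((measurable_pi_apply i).comp hh).mul_const _)).mul (Finset.measurable_prod _ fun k _ =>
      measurable_wgt' hx ((measurable_pi_apply k).comp hu)
        (measurable_pi_lambda _ fun j => (measurable_pi_apply (k, j)).comp hs) σ)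

include h0 h1 hxb

lemma bdd_pot (h : Fin N → ℝ) (u : κ → UMark K N) :
    Bdd (pot ρ x h u) (potBound ρ h (Fintype.card κ)) := by
  refine ⟨(measurable_Zpot' hx measurable_const measurable_const measurable_id).log,
    fun s => abs_le.2 ?_⟩
  obtain ⟨l, u'⟩ := Zpot_mem hxb h0 h1 h u s
  constructor
  · simpa [pot] using Real.log_le_log (Real.exp_pos _) l
  · simpa [pot] using Real.log_le_log (Zpot_pos hxb h0 h1 h u s) u'

omit h0 h1 hxb hx

/-- The nested log-moment of the potential of a family of marks. -/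
noncomputable def gain (C : Casc r) (ρ : ℝ) (x : (Fin (r + 1) → UI) → ℝ) (h : Fin N → ℝ)
    (u : κ → UMark K N) : ℝ :=
  lev0 C (pot ρ x h u)

lemma gain_eq_trialAvg {C : Casc r} {m : Fin r → ℝ} (hC : C.cdf = withZero m) (hm : ∀ p, 0 < m p)
    (hxb : ∀ ω, |x ω| ≤ 1) (h0 : 0 ≤ ρ) (h1 : ρ < 1) (hx : Measurable x) (h : Fin N → ℝ)
    (u : κ → UMark K N) :
    gain C ρ x h u = trialAvg (volume : Measure (κ × Fin K → UI)) m
      fun ω => Zpot ρ x h u fun i p => ω p i := by
  rw [gain, lev0_eq_trialAvg hC hm (bdd_pot hxb h0 h1 hx h u)]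
  simp only [pot, Real.exp_log (Zpot_pos hxb h0 h1 _ _ _)]

lemma measurable_gain {C : Casc r} {m : Fin r → ℝ} (hC : C.cdf = withZero m) (hm : ∀ p, 0 < m p)
    (hxb : ∀ ω, |x ω| ≤ 1) (h0 : 0 ≤ ρ) (h1 : ρ < 1) (hx : Measurable x) :
    Measurable fun p : (Fin N → ℝ) × (κ → UMark K N) => gain C ρ x p.1 p.2 := by
  simp only [gain_eq_trialAvg hC hm hxb h0 h1 hx]
  refine measurable_trialAvg _ m (Y := fun (p : (Fin N → ℝ) × (κ → UMark K N))
    (ω : Fin (r + 1) → κ × Fin K → UI) => Zpot ρ x p.1 p.2 fun i q => ω q i) ?_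
  exact measurable_Zpot' (Z := ((Fin N → ℝ) × (κ → UMark K N)) × (Fin (r + 1) → κ × Fin K → UI))
    (h := fun z => z.1.1) (u := fun z => z.1.2) (s := fun z i q => z.2 q i) hx
    (measurable_fst.comp measurable_fst)
    (measurable_snd.comp measurable_fst) (measurable_pi_lambda _ fun i => measurable_pi_lambda _
      fun q => (measurable_pi_apply i).comp ((measurable_pi_apply q).comp measurable_snd))

/-- The nested log-moment does not depend on the names of the marks. -/
lemma gain_equiv {κ' : Type} [Fintype κ'] {C : Casc r} (hxb : ∀ ω, |x ω| ≤ 1) (h0 : 0 ≤ ρ)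
    (h1 : ρ < 1) (hx : Measurable x) (e : κ' ≃ κ) (h : Fin N → ℝ) (u : κ → UMark K N) :
    gain C ρ x h (u ∘ e) = gain C ρ x h u := by
  rw [gain, gain, ← lev0_restrict (e := Prod.map e (id : Fin K → Fin K))
    (e.injective.prodMap Function.injective_id) (bdd_pot hxb h0 h1 hx h (u ∘ e))]
  congr 1
  funext s
  simp only [pot, Zpot, Function.comp_apply, Prod.map_apply, id_eq]
  congr 1
  exact Finset.sum_congr rfl fun σ _ => congrArg (fieldW h σ * ·)
    (Equiv.prod_comp e fun k => wgt ρ x (u k) σ fun j => s (k, j))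

end Vale.Agent.P168
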