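import Vale.Agent.P168.Upper.Core.Step
import Vale.Agent.P168.Upper.Thin

/-!
# P168: all clauses traded for fields
-/

namespace Vale.Agent.P168

open MeasureTheory Set Filter Vale.Agent.P157.Low Vale.Agent.P166F.Low.Cascade

variable {K N r : ℕ}

/-- A bound linear in the fields is integrable. -/
lemma integrable_fields (η : Measure ℝ) [IsProbabilityMeasure η] (hη : Integrable (fun h => h) η)
    (a b : ℝ) :
    Integrable (fun h : Fin N → ℝ => a + ∑ i, |h i| + b) (Measure.pi fun _ : Fin N => η) ∧
      ∫ h, (a + ∑ i, |h i| + b) ∂(Measure.pi fun _ : Fin N => η) =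
        a + N * (∫ t, |t| ∂η) + b := by
  have hi : ∀ i : Fin N, Integrable (fun h : Fin N → ℝ => |h i|)
      (Measure.pi fun _ : Fin N => η) := fun i =>
    ((measurePreserving_eval (fun _ : Fin N => η) i).integrable_comp
      (g := fun t : ℝ => |t|) measurable_id.abs.aestronglyMeasurable).2 hη.abs
  have he : ∀ i : Fin N, ∫ h : Fin N → ℝ, |h i| ∂(Measure.pi fun _ : Fin N => η) =
      ∫ t, |t| ∂η := fun i => by
    conv_rhs => rw [← (measurePreserving_eval (fun _ : Fin N => η) i).map_eq]
    exact (integral_map (f := fun t : ℝ => |t|) (measurable_pi_apply (X := fun _ : Fin N => ℝ) i).aemeasurable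
      (by fun_prop)).symm
  have hs : Integrable (fun h : Fin N → ℝ => ∑ i, |h i|) (Measure.pi fun _ : Fin N => η) :=
    integrable_finsetSum _ fun i _ => hi i
  refine ⟨((integrable_const a).add hs).add (integrable_const b), ?_⟩
  rw [integral_add (f := fun h : Fin N → ℝ => a + ∑ i, |h i|) (g := fun _ => b)
    ((integrable_const a).add hs) (integrable_const b), integral_add (integrable_const a) hs, integral_finsetSum _ fun i _ => hi i]
  simp [he]

variable {ρ : ℝ} {x : (Fin (r + 1) → UI) → ℝ} {C : Casc r} {m : Fin r → ℝ}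
  {η : Measure ℝ} [IsProbabilityMeasure η]

/-- The hypotheses on a trial. -/
structure Setting (C : Casc r) (m : Fin r → ℝ) (ρ : ℝ) (x : (Fin (r + 1) → UI) → ℝ) : Prop where
  cdf : C.cdf = withZero m
  pos : ∀ p, 0 < m p
  xb : ∀ ω, |x ω| ≤ 1
  nonneg : 0 ≤ ρ
  lt_one : ρ < 1
  xm : Measurable x

variable (S : Setting C m ρ x) (hη : Integrable (fun h => h) η)
include S hη

lemma integrable_gain (n : ℕ) (μ : Measure (Fin n → UMark K N)) [IsFiniteMeasure μ] :
    Integrable (fun p : (Fin N → ℝ) × (Fin n → UMark K N) => gain C ρ x p.1 p.2)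
      ((Measure.pi fun _ : Fin N => η).prod μ) := by
  refine Integrable.mono' (((integrable_fields (N := N) η hη ((N : ℝ) * Real.log 2)
    (cost ρ * n)).1).comp_fst μ)
    (measurable_gain S.cdf S.pos S.xb S.nonneg S.lt_one S.xm).aestronglyMeasurable
    (Eventually.of_forall fun p => ?_)
  have := abs_lev0_le (C := C) (bdd_pot S.xb S.nonneg S.lt_one S.xm p.1 p.2)
  simpa [gain, potBound] using this

omit hη S

/-- The mean over the fields and over `n` marks. -/
noncomputable def meanGain (C : Casc r) (ρ : ℝ) (x : (Fin (r + 1) → UI) → ℝ) (η : Measure ℝ)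
    (μ : Measure (UMark K N)) (n : ℕ) : ℝ :=
  ∫ h, ∫ v, gain C ρ x h v ∂(Measure.pi fun _ : Fin n => μ) ∂(Measure.pi fun _ : Fin N => η)

include hη S

lemma linGrowth_meanGain (μ : Measure (UMark K N)) [IsProbabilityMeasure μ] :
    LinGrowth (meanGain C ρ x η μ) := by
  refine ⟨(N : ℝ) * Real.log 2 + N * (∫ t, |t| ∂η), cost ρ, fun n => ?_⟩
  obtain ⟨hi, he⟩ := integrable_fields (N := N) η hη ((N : ℝ) * Real.log 2) (cost ρ * n)
  refine (norm_integral_le_of_norm_le (f := fun h => ∫ v, gain C ρ x h v
    ∂(Measure.pi fun _ : Fin n => μ)) hi (Eventually.of_forall fun h => ?_)).trans he.le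
  refine (norm_integral_le_of_norm_le_const (C := potBound ρ h n)
    (Eventually.of_forall fun v => ?_)).trans (le_of_eq (by simp [potBound]))
  simpa [gain] using abs_lev0_le (C := C) (bdd_pot S.xb S.nonneg S.lt_one S.xm h v)

variable {β : Measure ℝ} [IsProbabilityMeasure β] {φ : Measure (Bool → ℝ)} [IsProbabilityMeasure φ]
  (hK : Even K) (hpos : ∀ n : ℕ, 1 ≤ n → 0 ≤ ∫ b, (-uclip ρ b) ^ n ∂β)
include hK hpos

/-- The fields win, for every number of marks. -/
theorem meanGain_le [NeZero K] [NeZero N] (n : ℕ) :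
    meanGain C ρ x η (umarkLaw β φ (placeClause K N)) n ≤
      meanGain C ρ x η (umarkLaw β φ (placeField K N)) n := by
  refine integral_mono (integrable_gain S hη n _).integral_prod_left
    (integrable_gain S hη n _).integral_prod_left fun h => ?_
  have hm : Measurable fun v : Fin n → UMark K N => gain C ρ x h v := by
    have hG : Measurable fun p : (Fin N → ℝ) × (Fin n → UMark K N) => gain C ρ x p.1 p.2 :=
      measurable_gain S.cdf S.pos S.xb S.nonneg S.lt_one S.xm
    generalize (gain C ρ x : (Fin N → ℝ) → (Fin n → UMark K N) → ℝ) = G at hG ⊢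
    exact hG.comp measurable_prodMk_left
  have hb : ∀ v : Fin n → UMark K N, |gain C ρ x h v| ≤ potBound ρ h n := fun v => by
    simpa [gain] using abs_lev0_le (C := C) (bdd_pot S.xb S.nonneg S.lt_one S.xm h v)
  refine integral_hybrid_le (umarkLaw β φ (placeField K N)) (umarkLaw β φ (placeClause K N)) n
    (fun v : Fin n → UMark K N => gain C ρ x h v) (potBound ρ h n) hm hb fun j v => ?_
  have e : ∀ u, gain C ρ x h (Function.update v j u) =
      gain C ρ x h (fun o : Option {k // k ≠ j} => o.elim u fun k => v k) := fun u => by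
    rw [← gain_equiv (C := C) S.xb S.nonneg S.lt_one S.xm (Equiv.optionSubtypeNe j) h]
    congr 1
    funext o
    rcases o with _ | k
    · simp
    · simp [k.2]
  simp only [e]
  exact gain_step S.xb S.nonneg S.lt_one S.xm hK hpos h _

end Vale.Agent.P168
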