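import Vale.Agent.P168.Upper.Core.Clauses

/-!
# P168: fields separate the sites
-/

namespace Vale.Agent.P168

open MeasureTheory Set Filter Vale.Agent.P157.Low Vale.Agent.P166F.Low.Cascade
open scoped ENNReal

variable {K N r : ℕ} {ρ : ℝ} {x : (Fin (r + 1) → UI) → ℝ} {C : Casc r} {m : Fin r → ℝ}

/-- Some attached position of the mark lies at site `i`. -/
def Att (i : Fin N) (v : UMark K N) : Prop := ∃ j, v.1.1 j = true ∧ v.1.2 j = i

instance (i : Fin N) (v : UMark K N) : Decidable (Att i v) := by unfold Att; infer_instance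

/-- A mark with one attached position. -/
def IsField (v : UMark K N) : Prop := ∃ ℓ, v.1.1 = maskOne ℓ

lemma att_iff {v : UMark K N} {ℓ : Fin K} (hv : v.1.1 = maskOne ℓ) (i : Fin N) :
    Att i v ↔ v.1.2 ℓ = i := by
  simp [Att, hv, maskOne]

/-- The weight of a mark as a function of the spin of its site. -/
noncomputable def siteWgt (ρ : ℝ) (x : (Fin (r + 1) → UI) → ℝ) (v : UMark K N) (ε : Bool)
    (t : Msgs r (Fin K)) : ℝ :=
  1 + uclip ρ v.2.1 * ∏ j, if v.1.1 j then fOf v.2.2 j ε else bar (fOf v.2.2 j) (x (t j))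

variable {κ : Type} [Fintype κ]

/-- The partition function of one site. -/
noncomputable def siteZ (ρ : ℝ) (x : (Fin (r + 1) → UI) → ℝ) (i : Fin N) (h : ℝ)
    (u : κ → UMark K N) (s : Msgs r (κ × Fin K)) : ℝ :=
  ∑ ε : Bool, Real.exp (h * spin ε) *
    ∏ k, if Att i (u k) then siteWgt ρ x (u k) ε (fun j => s (k, j)) else 1

/-- The nested log-moment of one site. -/
noncomputable def siteGain (C : Casc r) (ρ : ℝ) (x : (Fin (r + 1) → UI) → ℝ) (i : Fin N) (h : ℝ)
    (u : κ → UMark K N) : ℝ :=
  lev0 C fun s => Real.log (siteZ ρ x i h u s)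

variable (S : Setting C m ρ x)
include S

lemma siteWgt_mem (v : UMark K N) (ε : Bool) (t : Msgs r (Fin K)) :
    Real.exp (-cost ρ) ≤ siteWgt ρ x v ε t ∧ siteWgt ρ x v ε t ≤ Real.exp (cost ρ) := by
  refine one_add_mem S.nonneg S.lt_one ?_
  rw [abs_mul, Finset.abs_prod]
  refine (mul_le_mul (abs_uclip_le S.nonneg _) (Finset.prod_le_one (fun _ _ => abs_nonneg _)
    fun j _ => ?_) (Finset.prod_nonneg fun _ _ => abs_nonneg _) S.nonneg).trans (mul_one ρ).le
  split_ifs
  exacts [fOf_le _ _ _, abs_bar_le (fOf_le _ _) (S.xb _)]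

lemma siteZ_mem (i : Fin N) (h : ℝ) (u : κ → UMark K N) (s : Msgs r (κ × Fin K)) :
    Real.exp (-(Real.log 2 + |h| + cost ρ * (Fintype.card κ : ℝ))) ≤ siteZ ρ x i h u s ∧
      siteZ ρ x i h u s ≤ Real.exp (Real.log 2 + |h| + cost ρ * (Fintype.card κ : ℝ)) := by
  have hcn := cost_nonneg S.nonneg S.lt_one
  have hw : ∀ ε k, Real.exp (-cost ρ) ≤
      (if Att i (u k) then siteWgt ρ x (u k) ε (fun j => s (k, j)) else 1) ∧
      (if Att i (u k) then siteWgt ρ x (u k) ε (fun j => s (k, j)) else 1) ≤ Real.exp (cost ρ) :=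
    fun ε k => by
      split_ifs
      · exact siteWgt_mem S _ _ _
      · exact ⟨Real.exp_le_one_iff.2 (neg_nonpos.2 hcn), Real.one_le_exp hcn⟩
  have hterm : ∀ ε : Bool, Real.exp (-(|h| + cost ρ * (Fintype.card κ : ℝ))) ≤ Real.exp (h * spin ε) *
      (∏ k, if Att i (u k) then siteWgt ρ x (u k) ε (fun j => s (k, j)) else 1) ∧
      Real.exp (h * spin ε) *
      (∏ k, if Att i (u k) then siteWgt ρ x (u k) ε (fun j => s (k, j)) else 1) ≤
        Real.exp (|h| + cost ρ * (Fintype.card κ : ℝ)) := fun ε => by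
    have a : |h * spin ε| ≤ |h| := by rw [abs_mul]; cases ε <;> simp [spin]
    obtain ⟨a1, a2⟩ := abs_le.1 a
    have p1 := Finset.prod_le_prod (s := Finset.univ) (fun k _ => (Real.exp_pos (-cost ρ)).le)
      (fun k _ => (hw ε k).1)
    have p2 := Finset.prod_le_prod (s := Finset.univ)
      (fun k _ => (Real.exp_pos _).le.trans (hw ε k).1) (fun k _ => (hw ε k).2)
    rw [Finset.prod_const, Finset.card_univ, ← Real.exp_nat_mul, mul_comm _ (-cost ρ), neg_mul] at p1
    rw [Finset.prod_const, Finset.card_univ, ← Real.exp_nat_mul, mul_comm _ (cost ρ)] at p2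
    rw [neg_add, Real.exp_add, Real.exp_add]
    exact ⟨mul_le_mul (Real.exp_le_exp.2 a1) p1 (Real.exp_pos _).le (Real.exp_pos _).le,
      mul_le_mul (Real.exp_le_exp.2 a2) p2
        (Finset.prod_nonneg fun k _ => (Real.exp_pos _).le.trans (hw ε k).1) (Real.exp_pos _).le⟩
  simp only [siteZ, Fintype.sum_bool, add_assoc, neg_add, Real.exp_add] at hterm ⊢
  have h2 : Real.exp (Real.log 2) = 2 := Real.exp_log two_pos
  obtain ⟨t1, t2⟩ := hterm true
  obtain ⟨f1, f2⟩ := hterm false
  constructor
  · have hl : Real.exp (-Real.log 2) ≤ 2 := by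
      rw [Real.exp_neg, h2]; norm_num
    calc _ ≤ 2 * (Real.exp (-|h|) * Real.exp (-(cost ρ * (Fintype.card κ : ℝ)))) :=
          mul_le_mul_of_nonneg_right hl (by positivity)
      _ ≤ _ := by linarith
  · rw [h2]; linarith

lemma measurable_siteZ {Z : Type} [MeasurableSpace Z] (i : Fin N) {h : Z → ℝ} (hh : Measurable h)
    {u : Z → κ → UMark K N} (hu : Measurable u) {s : Z → Msgs r (κ × Fin K)} (hs : Measurable s) :
    Measurable fun z => siteZ ρ x i (h z) (u z) (s z) := by
  refine Finset.measurable_sum _ fun ε _ => ((hh.mul_const _).exp).mul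
    (Finset.measurable_prod _ fun k _ => ?_)
  have hk : Measurable fun z => u z k := (measurable_pi_apply k).comp hu
  have hatt : MeasurableSet {z | Att i (u z k)} := by
    have e : {z | Att i (u z k)} =
        (fun z => (u z k).1) ⁻¹' {p | ∃ j, p.1 j = true ∧ p.2 j = i} := rfl
    rw [e]
    exact (measurable_fst.comp hk) (Set.toFinite _).measurableSet
  refine Measurable.ite hatt (measurable_const.add (((measurable_uclip ρ).comp
    (measurable_fst.comp (measurable_snd.comp hk))).mul (Finset.measurable_prod _ fun j _ => ?_)))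
    measurable_const
  have hf : ∀ b, Measurable fun z => fOf (u z k).2.2 j b := fun b =>
    (measurable_uclip 1).comp ((measurable_pi_apply b).comp ((measurable_pi_apply j).comp
      (measurable_snd.comp (measurable_snd.comp hk))))
  refine Measurable.ite (measurableSet_eq_fun ((measurable_pi_apply j).comp
    (measurable_fst.comp (measurable_fst.comp hk))) measurable_const) (hf ε) ?_
  unfold bar msgWeight
  exact Finset.measurable_sum _ fun b _ => ((measurable_const.add ((S.xm.comp
    ((measurable_pi_apply (k, j)).comp hs)).mul_const _)).div_const _).mul (hf b)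

lemma bdd_siteLog (i : Fin N) (h : ℝ) (u : κ → UMark K N) :
    Bdd (fun s => Real.log (siteZ ρ x i h u s))
      (Real.log 2 + |h| + cost ρ * (Fintype.card κ : ℝ)) := by
  refine ⟨(measurable_siteZ S i measurable_const measurable_const measurable_id).log,
    fun s => abs_le.2 ?_⟩
  obtain ⟨l, u'⟩ := siteZ_mem S i h u s
  exact ⟨by simpa using Real.log_le_log (Real.exp_pos _) l,
    by simpa using Real.log_le_log ((Real.exp_pos _).trans_le l) u'⟩

lemma siteGain_eq_trialAvg (i : Fin N) (h : ℝ) (u : κ → UMark K N) :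
    siteGain C ρ x i h u = trialAvg (volume : Measure (κ × Fin K → UI)) m
      fun ω => siteZ ρ x i h u fun q p => ω p q := by
  rw [siteGain, lev0_eq_trialAvg S.cdf S.pos (bdd_siteLog S i h u)]
  simp only [Real.exp_log ((Real.exp_pos _).trans_le (siteZ_mem S i h u _).1)]

lemma measurable_siteGain (i : Fin N) :
    Measurable fun p : (κ → UMark K N) × ℝ => siteGain C ρ x i p.2 p.1 := by
  simp only [siteGain_eq_trialAvg S]
  refine measurable_trialAvg _ m (Y := fun (p : (κ → UMark K N) × ℝ)
    (ω : Fin (r + 1) → κ × Fin K → UI) => siteZ ρ x i p.2 p.1 fun q l => ω l q) ?_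
  exact measurable_siteZ (Z := ((κ → UMark K N) × ℝ) × (Fin (r + 1) → κ × Fin K → UI))
    (h := fun z => z.1.2) (u := fun z => z.1.1) (s := fun z q l => z.2 l q) S i
    (measurable_snd.comp measurable_fst) (measurable_fst.comp measurable_fst)
    (measurable_pi_lambda _ fun q => measurable_pi_lambda _ fun l =>
      (measurable_pi_apply q).comp ((measurable_pi_apply l).comp measurable_snd))

lemma measurable_siteGain_right (i : Fin N) (u : κ → UMark K N) :
    Measurable fun t => siteGain C ρ x i t u := by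
  simp only [siteGain_eq_trialAvg S]
  refine measurable_trialAvg _ m (Y := fun (t : ℝ)
    (ω : Fin (r + 1) → κ × Fin K → UI) => siteZ ρ x i t u fun q l => ω l q) ?_
  exact measurable_siteZ (Z := ℝ × (Fin (r + 1) → κ × Fin K → UI))
    (h := fun z => z.1) (u := fun _ => u) (s := fun z q l => z.2 l q) S i
    measurable_fst measurable_const
    (measurable_pi_lambda _ fun q => measurable_pi_lambda _ fun l =>
      (measurable_pi_apply q).comp ((measurable_pi_apply l).comp measurable_snd))

lemma measurable_siteGain_left (i : Fin N) (t : ℝ) :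
    Measurable fun u : κ → UMark K N => siteGain C ρ x i t u := by
  simp only [siteGain_eq_trialAvg S]
  refine measurable_trialAvg _ m (Y := fun (u : κ → UMark K N)
    (ω : Fin (r + 1) → κ × Fin K → UI) => siteZ ρ x i t u fun q l => ω l q) ?_
  exact measurable_siteZ (Z := (κ → UMark K N) × (Fin (r + 1) → κ × Fin K → UI))
    (h := fun _ => t) (u := fun z => z.1) (s := fun z q l => z.2 l q) S i
    measurable_const measurable_fst
    (measurable_pi_lambda _ fun q => measurable_pi_lambda _ fun l =>
      (measurable_pi_apply q).comp ((measurable_pi_apply l).comp measurable_snd))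

/-- Fields make the nested log-moment a sum over sites. -/
lemma gain_fields (h : Fin N → ℝ) (u : κ → UMark K N) (hu : ∀ k, IsField (u k)) :
    gain C ρ x h u = ∑ i, siteGain C ρ x i (h i) u := by
  classical
  choose ℓ hℓ using hu
  have hpot : ∀ s, pot ρ x h u s = ∑ i, Real.log (siteZ ρ x i (h i) u s) := fun s => by
    rw [← Real.log_prod fun i _ =>
      ((Real.exp_pos _).trans_le (siteZ_mem S i (h i) u s).1).ne', pot]
    congr 1
    simp only [siteZ, Fintype.prod_sum, Zpot, fieldW, Real.exp_sum]
    refine Finset.sum_congr rfl fun σ _ => ?_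
    rw [Finset.prod_mul_distrib]
    congr 1
    rw [Finset.prod_comm]
    refine Finset.prod_congr rfl fun k _ => ?_
    simp only [att_iff (hℓ k), Finset.prod_ite_eq, Finset.mem_univ, if_true]
    unfold wgt siteWgt
    refine congrArg (fun t => 1 + uclip ρ (u k).2.1 * t) (Finset.prod_congr rfl fun j _ => ?_)
    simp only [fac, hℓ k, maskOne, decide_eq_true_eq]
    split_ifs with hj
    · subst hj; rfl
    · rfl
  rw [gain, funext hpot, lev0_sum Finset.univ (L := Real.log 2 + ∑ i, |h i| +
    cost ρ * (Fintype.card κ : ℝ)) (D := fun i => {p : κ × Fin K | Att i (u p.1)})]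
  · rfl
  · refine fun i _ => ⟨(bdd_siteLog S i (h i) u).meas, fun s => ?_⟩
    have := Finset.single_le_sum (f := fun i => |h i|) (fun _ _ => abs_nonneg _) (Finset.mem_univ i)
    linarith [(bdd_siteLog S i (h i) u).le s]
  · intro i _ s s' hs
    simp only [siteZ]
    refine congrArg Real.log (Finset.sum_congr rfl fun ε _ => congrArg _
      (Finset.prod_congr rfl fun k _ => ?_))
    split_ifs with ha
    · rw [funext fun j => hs (k, j) ha]
    · rfl
  · intro i _ i' _ hii
    refine Set.disjoint_left.2 fun p hp hp' => hii ?_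
    exact ((att_iff (hℓ p.1) i).1 hp).symm.trans ((att_iff (hℓ p.1) i').1 hp')

end Vale.Agent.P168
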