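import Vale.Agent.P168.Upper.Core.Mark
import Vale.Agent.P168.Upper.Convex

/-!
# P168: trading one clause for fields does not lower the nested log-moment
-/

namespace Vale.Agent.P168

open MeasureTheory Set Filter Vale.Agent.P157.Low Vale.Agent.P166F.Low.Cascade
open scoped ENNReal

variable {K N r : ℕ}

lemma isProbability_unif (N : ℕ) [NeZero N] : IsProbabilityMeasure (unif N) := by
  constructor
  simp [unif, ENNReal.inv_mul_cancel (NeZero.ne (N : ℝ≥0∞)) (ENNReal.natCast_ne_top N)]

instance [NeZero N] : IsProbabilityMeasure (unif N) := isProbability_unif N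

lemma integral_unif [NeZero N] (g : Fin N → ℝ) : ∫ i, g i ∂unif N = (∑ i, g i) / N := by
  simp [unif, integral_smul_measure, integral_fintype Integrable.of_finite, div_eq_inv_mul]

/-- All positions are attached: a clause. -/
def maskAll (K : ℕ) : Fin K → Bool := fun _ => true

/-- No position is attached. -/
def maskNone (K : ℕ) : Fin K → Bool := fun _ => false

/-- One position is attached: a field. -/
def maskOne (ℓ : Fin K) : Fin K → Bool := fun j => decide (j = ℓ)

/-- A clause or a free factor. -/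
noncomputable def placeClause (K N : ℕ) : Measure ((Fin K → Bool) × (Fin K → Fin N)) :=
  (ENNReal.ofReal (1 / K) • Measure.dirac (maskAll K) +
    ENNReal.ofReal (((K : ℝ) - 1) / K) • Measure.dirac (maskNone K)).prod
      (Measure.pi fun _ : Fin K => unif N)

/-- A field. -/
noncomputable def placeField (K N : ℕ) : Measure ((Fin K → Bool) × (Fin K → Fin N)) :=
  ((unif K).prod (unif N)).map fun p => (maskOne p.1, fun _ => p.2)

/-- The law of a mark. -/
noncomputable def umarkLaw (β : Measure ℝ) (φ : Measure (Bool → ℝ))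
    (τ : Measure ((Fin K → Bool) × (Fin K → Fin N))) : Measure (UMark K N) :=
  τ.prod (β.prod (Measure.pi fun _ : Fin K => φ))

lemma isProbability_placeClause [NeZero K] [NeZero N] :
    IsProbabilityMeasure (placeClause K N) := by
  have hK : (1 : ℝ) ≤ K := by exact_mod_cast NeZero.one_le
  have : IsProbabilityMeasure (ENNReal.ofReal (1 / K) • Measure.dirac (maskAll K) +
      ENNReal.ofReal (((K : ℝ) - 1) / K) • Measure.dirac (maskNone K)) := by
    constructor
    simp only [Measure.coe_add, Measure.coe_smul, Pi.add_apply, Pi.smul_apply, measure_univ,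
      smul_eq_mul, mul_one]
    rw [← ENNReal.ofReal_add (by positivity) (div_nonneg (by linarith) (by linarith))]
    field_simp
    simp
  unfold placeClause
  infer_instance

lemma isProbability_placeField [NeZero K] [NeZero N] : IsProbabilityMeasure (placeField K N) :=
  Measure.isProbabilityMeasure_map (Measurable.of_discrete.aemeasurable)

instance [NeZero K] [NeZero N] : IsProbabilityMeasure (placeClause K N) := isProbability_placeClause

instance [NeZero K] [NeZero N] : IsProbabilityMeasure (placeField K N) := isProbability_placeField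

instance {β : Measure ℝ} [IsProbabilityMeasure β] {φ : Measure (Bool → ℝ)} [IsProbabilityMeasure φ]
    {τ : Measure ((Fin K → Bool) × (Fin K → Fin N))} [IsProbabilityMeasure τ] :
    IsProbabilityMeasure (umarkLaw β φ τ) := by
  unfold umarkLaw; infer_instance

variable {ρ : ℝ} {x : (Fin (r + 1) → UI) → ℝ} {C : Casc r} {κ : Type} [Fintype κ] {n : ℕ}

/-- The Gibbs weight of a configuration. -/
noncomputable def ugibbs (ρ : ℝ) (x : (Fin (r + 1) → UI) → ℝ) (h : Fin N → ℝ) (u : κ → UMark K N)
    (σ : Fin N → Bool) (s : Msgs r (κ × Fin K)) : ℝ :=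
  fieldW h σ * (∏ k, wgt ρ x (u k) σ fun j => s (k, j)) / Zpot ρ x h u s

/-- The correction of one more mark. -/
noncomputable def corr (ρ : ℝ) (x : (Fin (r + 1) → UI) → ℝ) (h : Fin N → ℝ) (u : κ → UMark K N)
    (v : UMark K N) (s : Msgs r (Option κ × Fin K)) : ℝ :=
  -uclip ρ v.2.1 * ∑ σ, ugibbs ρ x h u σ (fun p => s (some p.1, p.2)) *
    ∏ j, fac x v σ (fun j => s (none, j)) j

/-- The factor of one position after averaging the message. -/
noncomputable def posAvg (C : Casc r) (x : (Fin (r + 1) → UI) → ℝ) (A : LMat r n)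
    (σs : Fin n → Fin N → Bool) (t : Bool) (g : Bool → ℝ) (i : Fin N) : ℝ :=
  (msgTower C).plain A fun a y => if t then uclip 1 (g (σs a i)) else bar (fun s => uclip 1 (g s)) (x y)

variable (hxb : ∀ ω, |x ω| ≤ 1) (h0 : 0 ≤ ρ) (h1 : ρ < 1) (hx : Measurable x)

lemma bdd_posFun (hxb : ∀ ω, |x ω| ≤ 1) (hx : Measurable x) (t : Bool) (g : Bool → ℝ) (c : Bool) :
    Bdd (fun y => if t then uclip 1 (g c) else bar (fun s => uclip 1 (g s)) (x y)) 1 := by
  cases t
  · refine ⟨?_, fun y => ?_⟩
    · simp only [Bool.false_eq_true, if_false]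
      unfold bar msgWeight
      fun_prop
    · simp only [Bool.false_eq_true, if_false]
      exact abs_bar_le (fun s => abs_uclip_le zero_le_one _) (hxb y)
  · exact ⟨by simp, fun y => by simpa using abs_uclip_le zero_le_one _⟩

lemma abs_posAvg_le (hxb : ∀ ω, |x ω| ≤ 1) (A : LMat r n) (σs : Fin n → Fin N → Bool) (t : Bool)
    (g : Bool → ℝ) (i : Fin N) : |posAvg C x A σs t g i| ≤ 1 := by
  have h := norm_integral_le_of_norm_le_const (μ := (msgTower C).noise r n) (C := 1)
    (f := fun ω => ∏ a, if t then uclip 1 (g (σs a i)) else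
      bar (fun s => uclip 1 (g s)) (x ((msgTower C).pos A ω (r + 1) a)))
    (Eventually.of_forall fun ω => by
      rw [Real.norm_eq_abs, Finset.abs_prod]
      refine Finset.prod_le_one (fun a _ => abs_nonneg _) fun a _ => ?_
      cases t
      · simpa using abs_bar_le (fun s => abs_uclip_le zero_le_one _) (hxb _)
      · simpa using abs_uclip_le zero_le_one _)
  simpa [posAvg, Tower.plain, Tower.noise] using h

lemma measurable_posAvg (hx : Measurable x) (A : LMat r n) (σs : Fin n → Fin N → Bool) :
    Measurable fun p : (Bool × (Bool → ℝ)) × Fin N => posAvg C x A σs p.1.1 p.1.2 p.2 := by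
  have hkey : ∀ i, Measurable fun p : Bool × (Bool → ℝ) => posAvg C x A σs p.1 p.2 i := fun i => by
    have hq : Measurable fun q : (Bool × (Bool → ℝ)) × (Fin (r + 1) × Fin n → UI) =>
        ∏ a, if q.1.1 then uclip 1 (q.1.2 (σs a i)) else
          bar (fun s => uclip 1 (q.1.2 s)) (x ((msgTower C).pos A q.2 (r + 1) a)) := by
      refine Finset.measurable_prod _ fun a _ => Measurable.ite ?_ ?_ ?_
      · exact (measurableSet_eq_fun (measurable_fst.comp measurable_fst) measurable_const)
      · exact (measurable_uclip 1).comp ((measurable_pi_apply _).comp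
          (measurable_snd.comp measurable_fst))
      unfold bar msgWeight
      exact Finset.measurable_sum _ fun b _ => ((measurable_const.add (((hx.comp
        ((Tower.measurable_pos (T := msgTower C) A (r + 1) a).comp measurable_snd))).mul_const _)).div_const _).mul
          ((measurable_uclip 1).comp ((measurable_pi_apply b).comp
            (measurable_snd.comp measurable_fst)))
    exact (hq.stronglyMeasurable.integral_prod_right' (ν := (msgTower C).noise r n)).measurable
  have e : (fun p : (Bool × (Bool → ℝ)) × Fin N => posAvg C x A σs p.1.1 p.1.2 p.2) =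
      fun p => ∑ i : Fin N, if p.2 = i then posAvg C x A σs p.1.1 p.1.2 i else 0 := by
    funext p; simp
  rw [e]
  exact Finset.measurable_sum _ fun i _ => Measurable.ite
    (measurableSet_eq_fun measurable_snd measurable_const) ((hkey i).comp measurable_fst)
    measurable_const

include hxb h0 h1 hx

lemma bdd_gibbs (h : Fin N → ℝ) (u : κ → UMark K N) (σ : Fin N → Bool) :
    Bdd (ugibbs ρ x h u σ) 1 ∧ ∀ s, 0 ≤ ugibbs ρ x h u σ s := by
  have hnn : ∀ (τ : Fin N → Bool) (s : Msgs r (κ × Fin K)), 0 ≤ fieldW h τ * ∏ k, wgt ρ x (u k) τ fun j => s (k, j) :=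
    fun τ s => mul_nonneg (Real.exp_pos _).le
      (Finset.prod_nonneg fun k _ => (wgt_pos hxb h0 h1 _ _ _).le)
  have h2 : ∀ s, 0 ≤ ugibbs ρ x h u σ s := fun s =>
    div_nonneg (hnn σ s) (Zpot_pos hxb h0 h1 h u s).le
  refine ⟨⟨?_, fun s => ?_⟩, h2⟩
  · exact (measurable_const.mul (Finset.measurable_prod _ fun k _ => measurable_wgt' hx
      measurable_const (measurable_pi_lambda _ fun j => measurable_pi_apply (k, j)) σ)).div
        (measurable_Zpot' hx measurable_const measurable_const measurable_id)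
  · rw [abs_of_nonneg (h2 s), ugibbs, div_le_one (Zpot_pos hxb h0 h1 h u s)]
    exact Finset.single_le_sum (f := fun τ => fieldW h τ * ∏ k, wgt ρ x (u k) τ fun j => s (k, j))
      (fun τ _ => hnn τ s) (Finset.mem_univ σ)

omit hx in
lemma sum_gibbs (h : Fin N → ℝ) (u : κ → UMark K N) (s : Msgs r (κ × Fin K)) :
    ∑ σ, ugibbs ρ x h u σ s = 1 := by
  simp only [ugibbs, ← Finset.sum_div]
  exact div_self (Zpot_pos hxb h0 h1 h u s).ne'

lemma abs_corr_le (h : Fin N → ℝ) (u : κ → UMark K N) (v : UMark K N)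
    (s : Msgs r (Option κ × Fin K)) : |corr ρ x h u v s| ≤ ρ := by
  rw [corr, abs_mul, abs_neg]
  calc |uclip ρ v.2.1| * |∑ σ, ugibbs ρ x h u σ (fun p => s (some p.1, p.2)) *
        ∏ j, fac x v σ (fun j => s (none, j)) j|
      ≤ ρ * 1 := mul_le_mul (abs_uclip_le h0 _) ?_ (abs_nonneg _) h0
    _ = ρ := mul_one ρ
  refine (Finset.abs_sum_le_sum_abs _ _).trans ?_
  rw [← sum_gibbs hxb h0 h1 h u fun p => s (some p.1, p.2)]
  refine Finset.sum_le_sum fun σ _ => ?_
  rw [abs_mul, abs_of_nonneg ((bdd_gibbs hxb h0 h1 hx h u σ).2 _)]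
  exact mul_le_of_le_one_right ((bdd_gibbs hxb h0 h1 hx h u σ).2 _) (abs_prod_fac_le hxb v σ _)

lemma bdd_corr (h : Fin N → ℝ) (u : κ → UMark K N) (v : UMark K N) :
    Bdd (corr ρ x h u v) ρ := by
  refine ⟨measurable_const.mul (Finset.measurable_sum _ fun σ _ =>
    ((bdd_gibbs hxb h0 h1 hx h u σ).1.meas.comp (measurable_pi_lambda _ fun p =>
      measurable_pi_apply _)).mul (Finset.measurable_prod _ fun j _ => ?_)),
    abs_corr_le hxb h0 h1 hx h u v⟩
  simp only [fac]
  by_cases ht : v.1.1 j
  · simp [ht]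
  · simp only [ht, Bool.false_eq_true, if_false]
    unfold bar msgWeight
    fun_prop

/-- A new mark multiplies the partition function by `1 - corr`. -/
lemma gain_option (h : Fin N → ℝ) (u : κ → UMark K N) (v : UMark K N) :
    HasSum (fun k : ℕ => (copies (msgTower C) (Option κ × Fin K)).av C
        (fun s => pot ρ x h u fun p => s (some p.1, p.2)) (fun _ : LMat r (k + 1) => 1)
        (fun _ => corr ρ x h u v) / ((k : ℝ) + 1))
      (gain C ρ x h u - gain C ρ x h (fun o : Option κ => o.elim v u)) := by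
  set e : κ × Fin K → Option κ × Fin K := fun p => (some p.1, p.2)
  have he : Function.Injective e := fun p q hpq => by
    simpa [e, Prod.ext_iff] using hpq
  have hb := bdd_pot hxb h0 h1 hx h u
  have hU : Bdd (fun s : Msgs r (Option κ × Fin K) => pot ρ x h u (s ∘ e))
      (potBound ρ h (Fintype.card κ)) :=
    ⟨hb.meas.comp (measurable_pi_lambda _ fun p => measurable_pi_apply _), fun s => hb.le _⟩
  have hs := lev_add_log (C := C) (T := copies (msgTower C) (Option κ × Fin K)) (fun _ _ => rfl)
    hU (bdd_corr hxb h0 h1 hx h u v) h0 h1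
  have e1 : gain C ρ x h u = lev0 C fun s : Msgs r (Option κ × Fin K) => pot ρ x h u (s ∘ e) :=
    (lev0_restrict he hb).symm
  have e2 : ∀ s : Msgs r (Option κ × Fin K), pot ρ x h (fun o : Option κ => o.elim v u) s =
      pot ρ x h u (s ∘ e) + Real.log (1 - corr ρ x h u v s) := fun s => by
    have hp := Zpot_pos hxb h0 h1 h u (s ∘ e)
    have hc : 0 < 1 - corr ρ x h u v s := by
      linarith [(abs_le.1 (abs_corr_le hxb h0 h1 hx h u v s)).2]
    rw [pot, pot, ← Real.log_mul hp.ne' hc.ne']
    congr 1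
    have hσ : ∀ σ, ugibbs ρ x h u σ (fun p => s (some p.1, p.2)) * Zpot ρ x h u (s ∘ e) =
        fieldW h σ * ∏ k, wgt ρ x (u k) σ fun j => s (some k, j) := fun σ =>
      div_mul_cancel₀ _ hp.ne'
    have hR : Zpot ρ x h u (s ∘ e) * (1 - corr ρ x h u v s) = ∑ σ,
        ((fieldW h σ * ∏ k, wgt ρ x (u k) σ fun j => s (some k, j)) +
          uclip ρ v.2.1 * ((ugibbs ρ x h u σ (fun p => s (some p.1, p.2)) * Zpot ρ x h u (s ∘ e)) *
            ∏ j, fac x v σ (fun j => s (none, j)) j)) := by
      rw [Finset.sum_add_distrib, ← Finset.mul_sum]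
      simp only [mul_right_comm _ (Zpot ρ x h u (s ∘ e)), ← Finset.sum_mul]
      show Zpot ρ x h u (s ∘ e) * _ = Zpot ρ x h u (s ∘ e) + _
      rw [corr]
      ring
    rw [hR]
    simp only [hσ]
    simp only [Zpot, Fintype.prod_option, Option.elim_none, Option.elim_some, wgt]
    exact Finset.sum_congr rfl fun σ _ => by ring
  rw [e1]
  have e3 : gain C ρ x h (fun o : Option κ => o.elim v u) = lev0 C fun s =>
      pot ρ x h u (s ∘ e) + Real.log (1 - corr ρ x h u v s) := congrArg (lev0 C) (funext e2)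
  rw [e3]
  exact hs

/-- The tilted replica average of the correction, expanded over configurations. -/
lemma tilt_corr (h : Fin N → ℝ) (u : κ → UMark K N) (v : UMark K N) (A : LMat r n) :
    (copies (msgTower C) (Option κ × Fin K)).tilt (fun s => pot ρ x h u fun p => s (some p.1, p.2))
        A (fun _ => corr ρ x h u v) =
      (-uclip ρ v.2.1) ^ n * ∑ σs : Fin n → Fin N → Bool,
        (copies (msgTower C) (κ × Fin K)).tilt (pot ρ x h u) A (fun a => ugibbs ρ x h u (σs a)) *
          ∏ j, posAvg C x A σs (v.1.1 j) (v.2.2 j) (v.1.2 j) := by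
  set T := msgTower C
  set e1 : (κ × Fin K) ⊕ Fin K → Option κ × Fin K :=
    Sum.elim (fun p => (some p.1, p.2)) fun j => (none, j)
  have he1 : Function.Injective e1 := fun a b hab => by
    rcases a with a | a <;> rcases b with b | b <;> simp [e1, Prod.ext_iff] at hab
    · exact congrArg Sum.inl (Prod.ext hab.1 hab.2)
    · exact congrArg Sum.inr hab
  have hh := (hom_sum (T := T)).comp (hom_restrict (T := T) he1)
  have hb := bdd_pot hxb h0 h1 hx h u
  have hL : 0 ≤ potBound ρ h (Fintype.card κ) := (abs_nonneg _).trans (hb.le fun _ _ => 0)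
  have hg := bdd_gibbs hxb h0 h1 hx h u
  have hP : ∀ σ, Bdd (fun t : Msgs r (Fin K) => ∏ j, fac x v σ t j) 1 := fun σ =>
    ⟨Finset.measurable_prod _ fun j _ =>
      (bdd_posFun hxb hx (v.1.1 j) (v.2.2 j) (σ (v.1.2 j))).meas.comp (measurable_pi_apply j),
      abs_prod_fac_le hxb v σ⟩
  have hU' : Bdd (fun p : Msgs r (κ × Fin K) × Msgs r (Fin K) => pot ρ x h u p.1)
      (potBound ρ h (Fintype.card κ)) := ⟨hb.meas.comp measurable_fst, fun p => hb.le _⟩
  have hU0 : Bdd (fun s : Msgs r (Option κ × Fin K) => pot ρ x h u fun p => s (some p.1, p.2))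
      (potBound ρ h (Fintype.card κ)) :=
    ⟨hb.meas.comp (measurable_pi_lambda _ fun p => measurable_pi_apply _), fun s => hb.le _⟩
  unfold corr
  rw [tilt_const_mul, tilt_sum (B := 1) hU0 hL (g := fun (_ : Fin n) (σ : Fin N → Bool)
    (s : Msgs r (Option κ × Fin K)) => ugibbs ρ x h u σ (fun p => s (some p.1, p.2)) *
      ∏ j, fac x v σ (fun j => s (none, j)) j)]
  · congr 1
    refine Finset.sum_congr rfl fun σs _ => ?_
    refine (hh.tilt_eq hU' A (g := fun a p => ugibbs ρ x h u (σs a) p.1 * ∏ j, fac x v (σs a) p.2 j)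
      fun a => ((hg _).1.meas.comp measurable_fst).mul ((hP _).meas.comp measurable_snd)).trans ?_
    refine (tilt_prod (T' := copies T (Fin K)) hb A (fun a => ugibbs ρ x h u (σs a))
      fun a t => ∏ j, fac x v (σs a) t j).trans (congrArg (_ * ·) ?_)
    exact plain_copies A (fun j a y => if v.1.1 j then uclip 1 (v.2.2 j (σs a (v.1.2 j)))
      else bar (fun s => uclip 1 (v.2.2 j s)) (x y))
      fun j a => (bdd_posFun hxb hx (v.1.1 j) (v.2.2 j) (σs a (v.1.2 j))).meas
  · intro a σ
    refine ⟨((hg σ).1.meas.comp (measurable_pi_lambda _ fun p => measurable_pi_apply _)).mul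
      ((hP σ).meas.comp (measurable_pi_lambda _ fun j => measurable_pi_apply _)), fun s => ?_⟩
    rw [abs_mul]
    exact mul_le_one₀ ((hg σ).1.le _) (abs_nonneg _) (abs_prod_fac_le hxb v σ _)

omit h0 h1
variable {β : Measure ℝ} [IsProbabilityMeasure β] {φ : Measure (Bool → ℝ)} [IsProbabilityMeasure φ]

omit hxb in
lemma measurable_term (A : LMat r n) (σs : Fin n → Fin N → Bool) :
    Measurable fun v : UMark K N =>
      (-uclip ρ v.2.1) ^ n * ∏ j, posAvg C x A σs (v.1.1 j) (v.2.2 j) (v.1.2 j) := by
  refine (((measurable_uclip ρ).comp (measurable_fst.comp measurable_snd)).neg.pow_const n).mul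
    (Finset.measurable_prod _ fun j _ => ?_)
  exact (measurable_posAvg (C := C) hx A σs).comp
    (f := fun v : UMark K N => ((v.1.1 j, v.2.2 j), v.1.2 j))
    ((((measurable_pi_apply j).comp (measurable_fst.comp measurable_fst)).prodMk
      ((measurable_pi_apply j).comp (measurable_snd.comp measurable_snd))).prodMk
        ((measurable_pi_apply j).comp (measurable_snd.comp measurable_fst)))

lemma integrable_term (A : LMat r n) (σs : Fin n → Fin N → Bool) (h0 : 0 ≤ ρ) (h1 : ρ < 1)
    (ν : Measure (UMark K N)) [IsFiniteMeasure ν] :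
    Integrable (fun v : UMark K N => (-uclip ρ v.2.1) ^ n *
      ∏ j, posAvg C x A σs (v.1.1 j) (v.2.2 j) (v.1.2 j)) ν := by
  refine Integrable.mono' (integrable_const (1 : ℝ))
    (measurable_term hx A σs).aestronglyMeasurable (Eventually.of_forall fun v => ?_)
  rw [Real.norm_eq_abs, abs_mul, abs_pow, abs_neg, Finset.abs_prod]
  exact mul_le_one₀ (pow_le_one₀ (abs_nonneg _) ((abs_uclip_le h0 _).trans h1.le))
    (Finset.prod_nonneg fun _ _ => abs_nonneg _)
    (Finset.prod_le_one (fun _ _ => abs_nonneg _) fun _ _ => abs_posAvg_le hxb A σs _ _ _)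

lemma integral_term (A : LMat r n) (σs : Fin n → Fin N → Bool) (h0 : 0 ≤ ρ) (h1 : ρ < 1)
    (τ : Measure ((Fin K → Bool) × (Fin K → Fin N))) [IsProbabilityMeasure τ] :
    ∫ v, (-uclip ρ v.2.1) ^ n * ∏ j, posAvg C x A σs (v.1.1 j) (v.2.2 j) (v.1.2 j)
        ∂umarkLaw β φ τ =
      (∫ b, (-uclip ρ b) ^ n ∂β) *
        ∫ q, ∏ j, (∫ g, posAvg C x A σs (q.1 j) g (q.2 j) ∂φ) ∂τ := by
  have hi := integrable_term (C := C) hxb hx A σs h0 h1 (umarkLaw β φ τ)
  unfold umarkLaw at hi ⊢
  rw [integral_prod _ hi, ← integral_const_mul]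
  refine integral_congr_ae (Eventually.of_forall fun q => ?_)
  dsimp only
  rw [integral_prod_mul (fun b => (-uclip ρ b) ^ n)
    (fun f : Fin K → Bool → ℝ => ∏ j, posAvg C x A σs (q.1 j) (f j) (q.2 j))]
  rw [integral_fintype_prod_eq_prod (μ := fun _ : Fin K => φ)
    (fun j g => posAvg C x A σs (q.1 j) g (q.2 j))]

omit hxb hx

lemma integral_placeClause [NeZero K] [NeZero N] (F : Bool → Fin N → ℝ) :
    ∫ q, ∏ j, F (q.1 j) (q.2 j) ∂placeClause K N =
      1 / K * ((∑ i, F true i) / N) ^ K + (((K : ℝ) - 1) / K) * ((∑ i, F false i) / N) ^ K := by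
  have hK : (1 : ℝ) ≤ K := by exact_mod_cast NeZero.one_le
  have := Measure.smul_finite (Measure.dirac (maskAll K))
    (ENNReal.ofReal_ne_top (r := 1 / (K : ℝ)))
  have := Measure.smul_finite (Measure.dirac (maskNone K))
    (ENNReal.ofReal_ne_top (r := ((K : ℝ) - 1) / K))
  unfold placeClause
  rw [integral_prod _ Integrable.of_finite]
  rw [integral_add_measure Integrable.of_finite Integrable.of_finite, integral_smul_measure,
    integral_smul_measure, integral_dirac, integral_dirac,
    ENNReal.toReal_ofReal (by positivity),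
    ENNReal.toReal_ofReal (div_nonneg (by linarith) (by linarith))]
  simp only [maskAll, maskNone, smul_eq_mul]
  rw [integral_fintype_prod_eq_prod (μ := fun _ : Fin K => unif N) (fun _ i => F true i),
    integral_fintype_prod_eq_prod (μ := fun _ : Fin K => unif N) (fun _ i => F false i)]
  simp only [integral_unif, Finset.prod_const, Finset.card_univ, Fintype.card_fin]

lemma integral_placeField [NeZero K] [NeZero N] (F : Bool → Fin N → ℝ) (c : ℝ)
    (hc : ∀ i, F false i = c) :
    ∫ q, ∏ j, F (q.1 j) (q.2 j) ∂placeField K N = (∑ i, F true i) / N * c ^ (K - 1) := by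
  rw [placeField, integral_map Measurable.of_discrete.aemeasurable
    (Measurable.of_discrete.aestronglyMeasurable)]
  have key : ∀ p : Fin K × Fin N, ∏ j, F (maskOne p.1 j) p.2 = F true p.2 * c ^ (K - 1) := fun p => by
    rw [← Finset.mul_prod_erase Finset.univ _ (Finset.mem_univ p.1)]
    simp only [maskOne, decide_true]
    congr 1
    rw [Finset.prod_eq_pow_card (b := c) fun j hj => by
      simp [(Finset.mem_erase.1 hj).1, hc]]
    simp
  simp only [key]
  rw [integral_mul_const, integral_fun_snd (fun i => F true i), integral_unif]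
  simp

/-- The replica averages of the correction, as a function of the new mark. -/
noncomputable def orderTerm (C : Casc r) (ρ : ℝ) (x : (Fin (r + 1) → UI) → ℝ) (h : Fin N → ℝ)
    (u : κ → UMark K N) (v : UMark K N) (k : ℕ) : ℝ :=
  (copies (msgTower C) (Option κ × Fin K)).av C (fun s => pot ρ x h u fun p => s (some p.1, p.2))
    (fun _ : LMat r (k + 1) => 1) (fun _ => corr ρ x h u v) / ((k : ℝ) + 1)

/-- The weight of configurations of the replicas. -/
noncomputable def replicaW (C : Casc r) (ρ : ℝ) (x : (Fin (r + 1) → UI) → ℝ) (h : Fin N → ℝ)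
    (u : κ → UMark K N) {k : ℕ} (A : LMat r k) (σs : Fin k → Fin N → Bool) : ℝ :=
  (copies (msgTower C) (κ × Fin K)).tilt (pot ρ x h u) A fun i => ugibbs ρ x h u (σs i)

include hxb h0 h1 hx

lemma orderTerm_eq (h : Fin N → ℝ) (u : κ → UMark K N) (v : UMark K N) (k : ℕ) :
    orderTerm C ρ x h u v k = (∑ A, C.P (k + 1) A * ∑ σs, replicaW C ρ x h u A σs *
      ((-uclip ρ v.2.1) ^ (k + 1) * ∏ j, posAvg C x A σs (v.1.1 j) (v.2.2 j) (v.1.2 j))) /
        ((k : ℝ) + 1) := by
  unfold orderTerm Tower.av
  congr 1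
  refine Finset.sum_congr rfl fun A _ => ?_
  rw [tilt_corr hxb h0 h1 hx h u v A, one_mul, Finset.mul_sum]
  exact congrArg _ (Finset.sum_congr rfl fun σs _ => by unfold replicaW; ring)

lemma measurable_orderTerm (h : Fin N → ℝ) (u : κ → UMark K N) (k : ℕ) :
    Measurable fun v => orderTerm C ρ x h u v k := by
  simp only [orderTerm_eq hxb h0 h1 hx]
  exact (Finset.measurable_sum _ fun A _ => (Finset.measurable_sum _ fun σs _ =>
    (measurable_term hx A σs).const_mul _).const_mul _).div_const _

lemma abs_orderTerm_le (h : Fin N → ℝ) (u : κ → UMark K N) (v : UMark K N) (k : ℕ) :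
    |orderTerm C ρ x h u v k| ≤ ρ ^ (k + 1) := by
  have hb := bdd_pot hxb h0 h1 hx h u
  have hU0 : Bdd (fun s : Msgs r (Option κ × Fin K) => pot ρ x h u fun p => s (some p.1, p.2))
      (potBound ρ h (Fintype.card κ)) :=
    ⟨hb.meas.comp (measurable_pi_lambda _ fun p => measurable_pi_apply _), fun s => hb.le _⟩
  have := abs_av_pow_le (C := C) (T := copies (msgTower C) (Option κ × Fin K)) hU0
    ((abs_nonneg _).trans (hb.le fun _ _ => 0)) (bdd_corr hxb h0 h1 hx h u v) (k + 1)
  rw [orderTerm, abs_div, abs_of_pos (by positivity : (0 : ℝ) < (k : ℝ) + 1)]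
  exact (div_le_self (abs_nonneg _) (by linarith [Nat.cast_nonneg (α := ℝ) k])).trans this

variable {β : Measure ℝ} [IsProbabilityMeasure β] {φ : Measure (Bool → ℝ)} [IsProbabilityMeasure φ]

lemma integral_orderTerm (h : Fin N → ℝ) (u : κ → UMark K N) (k : ℕ)
    (τ : Measure ((Fin K → Bool) × (Fin K → Fin N))) [IsProbabilityMeasure τ] :
    ∫ v, orderTerm C ρ x h u v k ∂umarkLaw β φ τ =
      (∑ A, C.P (k + 1) A * ∑ σs, replicaW C ρ x h u A σs *
        ((∫ b, (-uclip ρ b) ^ (k + 1) ∂β) *
          ∫ q, ∏ j, (∫ g, posAvg C x A σs (q.1 j) g (q.2 j) ∂φ) ∂τ)) / ((k : ℝ) + 1) := by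
  simp only [orderTerm_eq hxb h0 h1 hx]
  rw [integral_div, integral_finsetSum _ fun A _ =>
    (integrable_finsetSum _ fun σs _ =>
      (integrable_term (C := C) hxb hx A σs h0 h1 _).const_mul _).const_mul _]
  congr 1
  refine Finset.sum_congr rfl fun A _ => ?_
  rw [integral_const_mul, integral_finsetSum _ fun σs _ =>
    (integrable_term (C := C) hxb hx A σs h0 h1 _).const_mul _]
  simp only [integral_const_mul, integral_term hxb hx A _ h0 h1 τ]

/-- The mean effect of one more mark, order by order. -/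
lemma hasSum_gain_option (h : Fin N → ℝ) (u : κ → UMark K N)
    (τ : Measure ((Fin K → Bool) × (Fin K → Fin N))) [IsProbabilityMeasure τ] :
    HasSum (fun k => ∫ v, orderTerm C ρ x h u v k ∂umarkLaw β φ τ)
      (gain C ρ x h u - ∫ v, gain C ρ x h (fun o : Option κ => o.elim v u) ∂umarkLaw β φ τ) := by
  have hgeo : Summable fun k : ℕ => ρ ^ (k + 1) :=
    (summable_geometric_of_lt_one h0 h1).mul_left ρ |>.congr fun k => by ring
  have hsum := fun v => gain_option (C := C) hxb h0 h1 hx h u v
  have hmeas : Measurable fun v => gain C ρ x h u - gain C ρ x h (fun o : Option κ => o.elim v u) :=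
    measurable_of_tendsto_metrizable
      (fun n => Finset.measurable_sum _ fun k _ => measurable_orderTerm hxb h0 h1 hx h u k)
      (tendsto_pi_nhds.2 fun v => (hsum v).tendsto_sum_nat)
  have hint : Integrable (fun v => gain C ρ x h u - gain C ρ x h (fun o : Option κ => o.elim v u))
      (umarkLaw β φ τ) := by
    refine Integrable.mono' (integrable_const (∑' k : ℕ, ρ ^ (k + 1))) hmeas.aestronglyMeasurable
      (Eventually.of_forall fun v => ?_)
    rw [← (hsum v).tsum_eq]
    exact tsum_of_norm_bounded hgeo.hasSum fun k => abs_orderTerm_le hxb h0 h1 hx h u v k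
  have hS := hasSum_integral_of_dominated_convergence (μ := umarkLaw β φ τ)
    (F := fun k v => orderTerm C ρ x h u v k) (fun k _ => ρ ^ (k + 1))
    (fun k => (measurable_orderTerm hxb h0 h1 hx h u k).aestronglyMeasurable)
    (fun k => Eventually.of_forall fun v => abs_orderTerm_le hxb h0 h1 hx h u v k)
    (Eventually.of_forall fun _ => hgeo) (integrable_const _) (Eventually.of_forall hsum)
  have := integral_sub (integrable_const (μ := umarkLaw β φ τ) (gain C ρ x h u)) hint
  simp only [sub_sub_cancel, integral_const, probReal_univ, one_smul] at this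
  rw [this, sub_sub_cancel]
  exact hS

variable (hK : Even K) (hpos : ∀ n : ℕ, 1 ≤ n → 0 ≤ ∫ b, (-uclip ρ b) ^ n ∂β)
include hK hpos

/-- Changing a clause-or-free mark into a field does not lower the average. -/
theorem gain_step [NeZero K] [NeZero N] (h : Fin N → ℝ) (u : κ → UMark K N) :
    ∫ v, gain C ρ x h (fun o : Option κ => o.elim v u) ∂umarkLaw β φ (placeClause K N) ≤
      ∫ v, gain C ρ x h (fun o : Option κ => o.elim v u) ∂umarkLaw β φ (placeField K N) := by
  have h1' := hasSum_gain_option (C := C) (β := β) (φ := φ) hxb h0 h1 hx h u (placeClause K N)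
  have h0' := hasSum_gain_option (C := C) (β := β) (φ := φ) hxb h0 h1 hx h u (placeField K N)
  suffices hk : ∀ k, ∫ v, orderTerm C ρ x h u v k ∂umarkLaw β φ (placeField K N) ≤
      ∫ v, orderTerm C ρ x h u v k ∂umarkLaw β φ (placeClause K N) by
    linarith [hasSum_le hk h0' h1']
  intro k
  rw [integral_orderTerm hxb h0 h1 hx, integral_orderTerm hxb h0 h1 hx]
  refine div_le_div_of_nonneg_right (Finset.sum_le_sum fun A _ => mul_le_mul_of_nonneg_left
    (Finset.sum_le_sum fun σs _ => mul_le_mul_of_nonneg_left (mul_le_mul_of_nonneg_left ?_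
      (hpos _ (Nat.le_add_left 1 k))) ?_) (C.nonneg _ _)) (by positivity)
  · set F : Bool → Fin N → ℝ := fun t i => ∫ g, posAvg C x A σs t g i ∂φ
    show ∫ q, ∏ j, F (q.1 j) (q.2 j) ∂placeField K N ≤ ∫ q, ∏ j, F (q.1 j) (q.2 j) ∂placeClause K N
    have hc : ∀ i, F false i = F false 0 := fun i => by simp [F, posAvg]
    rw [integral_placeClause, integral_placeField F _ hc]
    have hN : (N : ℝ) ≠ 0 := NeZero.ne _
    have hKr : (0 : ℝ) < K := by exact_mod_cast (NeZero.pos K)
    simp only [hc, Finset.sum_const, Finset.card_univ, Fintype.card_fin, nsmul_eq_mul]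
    rw [mul_div_cancel_left₀ _ hN]
    set X := (∑ i, F true i) / (N : ℝ)
    set Y := F false 0
    have := tangent_le_pow hK X Y
    rw [← sub_nonneg]
    have : 1 / (K : ℝ) * X ^ K + ((K : ℝ) - 1) / K * Y ^ K - X * Y ^ (K - 1) =
        (X ^ K - K * X * Y ^ (K - 1) + ((K : ℝ) - 1) * Y ^ K) / K := by field_simp; ring
    rw [this]
    positivity
  · exact tilt_nonneg (bdd_pot hxb h0 h1 hx h u) A fun i s =>
      (bdd_gibbs hxb h0 h1 hx h u _).2 s

end Vale.Agent.P168
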